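import Vale.Agent.P268.T.H548.TauProf
import Vale.Agent.P268.T.H740.Static2
import Vale.Agent.P268.T.H128.IndW

/-!
# P268, topological half, route V: the plug `TauPhaseW`

`RegLt`, `RegY0`: the static regularity of the tau and phase move.  `tauPhaseW_of`: they imply
`RV.TauPhaseW`.
-/

set_option linter.unusedSectionVars false

namespace Vale.Agent.P268.T.TP548

open Set Filter Topology Vale.Agent.P268.T.Tau Vale.Agent.P268.T.RV Vale.Agent.P268.T.H740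

/-- Static regularity at the points `y₀ ≠ 0`, `z₀ ≠ 0`, before the end of the path (306). -/
def RegLt : Prop :=
  ∀ (E : Type) [NormedAddCommGroup E] [NormedSpace ℝ E] [FiniteDimensional ℝ E]
    (L : ℝ) (B : E × ℂ → ℂ), Tame (univ : Set Unit) L (fun _ => B) →
    ∀ (a : ℕ) (K D σ v : ℝ) (W : ℝ → ℝ) (Ω : ℝ → ℝ → ℝ), 1 ≤ a → Lift a K D W Ω → Tri σ v W Ω →
    ∃ l₀ : ℝ, ∀ l ≥ l₀, ∀ p ∈ dom, p.2 < 1 → ∀ (X₀ : E) (y₀ z₀ : ℂ), y₀ ≠ 0 → z₀ ≠ 0 →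
      0 ≤ (B (X₀, y₀) + mfam a l W Ω p y₀ z₀).re →
      RegAt (univ : Set Unit) (fun _ (q : (E × ℂ) × ℂ) => B q.1 + mfam a l W Ω p q.1.2 q.2) ()
        ((X₀, y₀), z₀)

/-- Static regularity at the points `y₀ = 0`, `z₀ ≠ 0`, before the end of the path (740). -/
def RegY0 : Prop :=
  ∀ (E : Type) [NormedAddCommGroup E] [NormedSpace ℝ E] [FiniteDimensional ℝ E]
    (L : ℝ) (B : E × ℂ → ℂ), Tame (univ : Set Unit) L (fun _ => B) →
    ∀ (a : ℕ) (K D σ v : ℝ) (W : ℝ → ℝ) (Ω : ℝ → ℝ → ℝ), 1 ≤ a → Lift a K D W Ω → Tri σ v W Ω →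
    ∃ l₀ : ℝ, ∀ l ≥ l₀, ∀ p ∈ dom, p.2 < 1 → ∀ (X₀ : E) (z₀ : ℂ), z₀ ≠ 0 →
      0 ≤ (B (X₀, 0) + mfam a l W Ω p 0 z₀).re →
      RegAt (univ : Set Unit) (fun _ (q : (E × ℂ) × ℂ) => B q.1 + mfam a l W Ω p q.1.2 q.2) ()
        ((X₀, 0), z₀)

theorem one_le_K2 (a : ℕ) : 1 ≤ K2 a := by
  have ha : (0 : ℝ) ≤ a := by positivity
  unfold K2
  nlinarith

theorem seg1_mem {τ : ℝ} (h : τ ∈ Icc (0 : ℝ) 1) : (τ, (0 : ℝ)) ∈ dom :=
  ⟨h, ⟨le_refl _, zero_le_one⟩, Or.inl rfl⟩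

theorem seg2_mem {t : ℝ} (h : t ∈ Icc (0 : ℝ) 1) : ((1 : ℝ), t) ∈ dom :=
  ⟨⟨zero_le_one, le_refl _⟩, h, Or.inr rfl⟩

/-- **The plug.** -/
theorem tauPhaseW_of (hlt : RegLt) (hy0 : RegY0) {L₂ : ℕ → ℝ} (hlev : LevTameW L₂) :
    TauPhaseW (fun a => 2 * (1 + CK a (K2 a))) := by
  intro E _ _ _ T N a L B hB ha haN
  have haT : a + 1 ≤ T := haN.trans hB.le
  have ha1 : 1 ≤ a := by omega
  have hL := lift_prof haT
  have hT := tri_prof haT
  obtain ⟨l1, h1⟩ := hlt E L B hB.tame a _ _ _ _ _ _ ha1 hL hT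
  obtain ⟨l2, h2⟩ := hy0 E L B hB.tame a _ _ _ _ _ _ ha1 hL hT
  obtain ⟨l3, h3⟩ := hlev E T N a L B hB ha haN
  refine ⟨max 0 (max l1 (max l2 l3)), fun lam hlam => ?_⟩
  have k0 : 0 ≤ lam := (le_max_left _ _).trans hlam
  have k1 : l1 ≤ lam := ((le_max_left _ _).trans (le_max_right _ _)).trans hlam
  have k2 : l2 ≤ lam := (((le_max_left _ _).trans (le_max_right _ _)).trans
    (le_max_right _ _)).trans hlam
  have k3 : l3 ≤ lam := (((le_max_right _ _).trans (le_max_right _ _)).trans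
    (le_max_right _ _)).trans hlam
  have hend : ∀ q : (E × ℂ) × ℂ, B q.1 + mfam a lam (Wp a) (Op T a) (1, 1) q.1.2 q.2 =
      levw T a B lam 0 q := fun q => by
    rw [mfam_one haT]; rfl
  have hstat : TFun (L₂ a) (levw T a B lam 0) :=
    (h3 lam k3).at (left_mem_Icc.mpr zero_le_one)
  have hfam : Tame dom (2 * (1 + CK a (K2 a)))
      (fun p (q : (E × ℂ) × ℂ) => B q.1 + mfam a lam (Wp a) (Op T a) p q.1.2 q.2) := by
    refine tame_mfam' hL (one_le_K2 a) (Wp_lip a) (Op_lip2 T a) k0 hB.tame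
      fun p hp X₀ y₀ z₀ hz₀ h0 => ?_
    rcases lt_or_ge p.2 1 with hp2 | hp2
    · by_cases hy : y₀ = 0
      · subst hy
        exact h2 lam k2 p hp hp2 X₀ z₀ hz₀ h0
      · exact h1 lam k1 p hp hp2 X₀ y₀ z₀ hy hz₀ h0
    · have e2 : p.2 = 1 := le_antisymm hp.2.1.2 hp2
      have e1 : p.1 = 1 := by
        rcases hp.2.2 with h | h
        · rw [e2] at h; exact absurd h one_ne_zero
        · exact h
      have e : p = (1, 1) := Prod.ext e1 e2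
      subst e
      have hne : ((X₀, y₀), z₀) ≠ (0 : (E × ℂ) × ℂ) := fun h => hz₀ (congrArg Prod.snd h)
      rw [hend ((X₀, y₀), z₀)] at h0
      have h4 := hstat.fam.reg () (mem_univ _) ((X₀, y₀), z₀) hne h0
      have e3 : (fun (_ : Unit) (q : (E × ℂ) × ℂ) =>
          B q.1 + mfam a lam (Wp a) (Op T a) (1, 1) q.1.2 q.2) =
          fun _ => levw T a B lam 0 := by
        funext _ q
        exact hend q
      rw [e3]
      exact h4
  have hp1 : Tame (Icc (0 : ℝ) 1) (2 * (1 + CK a (K2 a)))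
      (fun τ (q : (E × ℂ) × ℂ) => B q.1 + mfam a lam (Wp a) (Op T a) (τ, 0) q.1.2 q.2) :=
    hfam.param (φ := fun τ : ℝ => (τ, (0 : ℝ))) (by fun_prop) (fun τ hτ => seg1_mem hτ)
  have hp2 : Tame (Icc (0 : ℝ) 1) (2 * (1 + CK a (K2 a)))
      (fun t (q : (E × ℂ) × ℂ) => B q.1 + mfam a lam (Wp a) (Op T a) (1, t) q.1.2 q.2) :=
    hfam.param (φ := fun t : ℝ => ((1 : ℝ), t)) (by fun_prop) (fun t ht => seg2_mem ht)
  refine (TEqv.of_path' (F := fun p : (E × ℂ) × ℂ => B p.1 + clk lam a p.1.2 p.2)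
    (G := fun q : (E × ℂ) × ℂ => B q.1 + mfam a lam (Wp a) (Op T a) (1, 0) q.1.2 q.2) hp1
    (fun x => ?_) (fun x => rfl)).trans (TEqv.of_path' hp2 (fun x => rfl) hend)
  show B x.1 + mfam a lam (Wp a) (Op T a) (0, 0) x.1.2 x.2 = B x.1 + clk lam a x.1.2 x.2
  rw [mfam_zero k0]

end Vale.Agent.P268.T.TP548
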