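import Vale.Agent.P268.T.H548.Tail

/-!
# P268, topological half: the spaces `Sp c`, the links `lk` and the link chains `Fl`
-/

namespace Vale.Agent.P268.T

open Set Filter Topology

/-- The space of the variables of a chain: the head variable is the last factor. -/
def Sp : List ℕ → Type
  | [] => EuclideanSpace ℂ (Fin 0)
  | _ :: c => Sp c × ℂ

noncomputable instance instNACGSp : ∀ c : List ℕ, NormedAddCommGroup (Sp c)
  | [] => inferInstanceAs (NormedAddCommGroup (EuclideanSpace ℂ (Fin 0)))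
  | _ :: c => @Prod.normedAddCommGroup (Sp c) ℂ (instNACGSp c) _

noncomputable instance instNSSp : ∀ c : List ℕ, NormedSpace ℝ (Sp c)
  | [] => inferInstanceAs (NormedSpace ℝ (EuclideanSpace ℂ (Fin 0)))
  | _ :: c => @Prod.normedSpace ℝ (Sp c) ℂ _ _ _ (instNSSp c) _

instance instFDSp : ∀ c : List ℕ, FiniteDimensional ℝ (Sp c)
  | [] => inferInstanceAs (FiniteDimensional ℝ (EuclideanSpace ℂ (Fin 0)))
  | _ :: c => @Module.Finite.prod ℝ (Sp c) ℂ _ _ _ _ _ (instFDSp c) _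

/-- The phase of a complex number (`0` at `0`). -/
noncomputable def ph (z : ℂ) : ℂ := z / (‖z‖ : ℂ)

/-- The link of slope `lam`: modulus `min |z| (lam |y|)`, phase `arg y + a arg z`. -/
noncomputable def lk (lam : ℝ) (a : ℕ) (y z : ℂ) : ℂ :=
  ((min ‖z‖ (lam * ‖y‖) : ℝ) : ℂ) * (ph y * ph z ^ a)

/-- The link chain. -/
noncomputable def Fl (lam : ℝ) : ∀ c : List ℕ, Sp c → ℂ
  | [] => fun _ => 0
  | [a] => fun p => ((‖p.2‖ : ℝ) : ℂ) * ph p.2 ^ a
  | a :: b :: c => fun p => Fl lam (b :: c) p.1 + lk lam a p.1.2 p.2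

theorem Fl_single (lam : ℝ) (a : ℕ) (p : Sp [] × ℂ) :
    Fl lam [a] p = ((‖p.2‖ : ℝ) : ℂ) * ph p.2 ^ a := rfl

theorem Fl_cons (lam : ℝ) (a b : ℕ) (c : List ℕ) (p : (Sp c × ℂ) × ℂ) :
    Fl lam (a :: b :: c) p = Fl lam (b :: c) p.1 + lk lam a p.1.2 p.2 := rfl

example (a : ℕ) (c : List ℕ) : (instNACGSp (a :: c)) = @Prod.normedAddCommGroup (Sp c) ℂ _ _ := rfl

example (a : ℕ) (c : List ℕ) : (instNSSp (a :: c)) = @Prod.normedSpace ℝ (Sp c) ℂ _ _ _ _ _ := rfl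

end Vale.Agent.P268.T
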