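import Vale.Agent.P268.T.HEq

/-!
# P268, topological half: links and the tail lemma

`Tame s L F`: an `H`-family `F` on `E × ℂ`, `L`-Lipschitz in the last variable `y`, which at the
points `(X, 0)` is regular in the direction of `X`, with `y` as a parameter.  `Link s L L' m`: a
family of functions `m t y z` which may be attached to the last variable `y`.  `Tame.tail`: the
result `F (X, y) + m y z` is tame again, with last variable `z`.
-/

set_option linter.unusedSectionVars false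

namespace Vale.Agent.P268.T

open Set Filter Topology

variable {E : Type*} [NormedAddCommGroup E] [NormedSpace ℝ E]
  {Θ : Type*} [TopologicalSpace Θ]

/-- Tame families: class `H`, Lipschitz in the last variable, regular in the remaining
variables where the last one vanishes. -/
structure Tame (s : Set Θ) (L : ℝ) (F : Θ → E × ℂ → ℂ) : Prop where
  fam : HFam s F
  lip : ∀ t ∈ s, ∀ (X : E) (y y' : ℂ), ‖F t (X, y) - F t (X, y')‖ ≤ L * ‖y - y'‖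
  zreg : ∀ t₀ ∈ s, ∀ X₀ : E, X₀ ≠ 0 → 0 ≤ (F t₀ (X₀, 0)).re →
    RegAt (s ×ˢ (univ : Set ℂ)) (fun (p : Θ × ℂ) X => F p.1 (X, p.2)) (t₀, 0) X₀

/-- Regularity of a link at `(y₀, z₀)`: along some direction in the `(y, z)`-plane, whose
`y`-component is small compared with `1 / L`. -/
def LinkReg (s : Set Θ) (L : ℝ) (m : Θ → ℂ → ℂ → ℂ) (t₀ : Θ) (y₀ z₀ : ℂ) : Prop :=
  ∃ k : ℝ, 0 ≤ k ∧ ∃ A : ℂ →L[ℝ] ℂ × ℂ, k + L * ‖(ContinuousLinearMap.fst ℝ ℂ ℂ).comp A‖ < 1 ∧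
    ∃ U ∈ 𝓝 (y₀, z₀), ∀ᶠ t in 𝓝[s] t₀, MRegOn k (fun q : ℂ × ℂ => m t q.1 q.2) A U

/-- Links: functions `m t y z` which can be attached to a variable `y` in which the function is
`L`-Lipschitz; `L'` is the Lipschitz constant in `z`. -/
structure Link (s : Set Θ) (L L' : ℝ) (m : Θ → ℂ → ℂ → ℂ) : Prop where
  cont : ContinuousOn (fun p : Θ × (ℂ × ℂ) => m p.1 p.2.1 p.2.2) (s ×ˢ univ)
  hom : ∀ t ∈ s, ∀ r : ℝ, 0 ≤ r → ∀ y z : ℂ, m t (r • y) (r • z) = r • m t y z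
  zero : ∀ t ∈ s, ∀ y, m t y 0 = 0
  lip : ∀ t ∈ s, ∀ y z z' : ℂ, ‖m t y z - m t y z'‖ ≤ L' * ‖z - z'‖
  small : ∀ t₀ ∈ s, ∀ y₀ : ℂ, y₀ ≠ 0 → ∀ ε > 0, ∃ U ∈ 𝓝 y₀,
    ∀ᶠ p in 𝓝[s ×ˢ (univ : Set ℂ)] (t₀, (0 : ℂ)), ∀ y ∈ U, ∀ y' ∈ U,
      ‖m p.1 y p.2 - m p.1 y' p.2‖ ≤ ε * ‖y - y'‖
  reg : ∀ t₀ ∈ s, ∀ y₀ z₀ : ℂ, z₀ ≠ 0 → LinkReg s L m t₀ y₀ z₀

theorem LinkReg.mono_set {s s' : Set Θ} (hs : s' ⊆ s) {L : ℝ} {m : Θ → ℂ → ℂ → ℂ} {t₀ : Θ}
    {y₀ z₀ : ℂ} (h : LinkReg s L m t₀ y₀ z₀) : LinkReg s' L m t₀ y₀ z₀ := by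
  obtain ⟨k, hk, A, hA, U, hU, hev⟩ := h
  exact ⟨k, hk, A, hA, U, hU, hev.filter_mono (nhdsWithin_mono _ hs)⟩

/-- Regularity along the new variable `z`, with `y` as a parameter. -/
theorem LinkReg.of_z {s : Set Θ} {L : ℝ} {m : Θ → ℂ → ℂ → ℂ} {t₀ : Θ} {y₀ z₀ : ℂ}
    (h : RegAt (s ×ˢ (univ : Set ℂ)) (fun (p : Θ × ℂ) z => m p.1 p.2 z) (t₀, y₀) z₀) :
    LinkReg s L m t₀ y₀ z₀ := by
  obtain ⟨k, hk0, hk1, A, U, hU, hev⟩ := h
  rw [nhdsWithin_prod_eq, nhdsWithin_univ, eventually_prod_iff] at hev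
  obtain ⟨pa, ha, pb, hb, hab⟩ := hev
  refine ⟨k, hk0, (ContinuousLinearMap.inr ℝ ℂ ℂ).comp A, ?_, {y | pb y} ×ˢ U,
    prod_mem_nhds hb hU, ?_⟩
  · have : (ContinuousLinearMap.fst ℝ ℂ ℂ).comp ((ContinuousLinearMap.inr ℝ ℂ ℂ).comp A) = 0 := by
      ext c; all_goals simp
    rw [this, norm_zero, mul_zero, add_zero]
    exact hk1
  · filter_upwards [ha] with t ht q hq c hc
    have e1 : q + ((ContinuousLinearMap.inr ℝ ℂ ℂ).comp A) c = (q.1, q.2 + A c) := by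
      ext <;> simp
    rw [e1] at hc ⊢
    exact hab ht hq.1 q.2 hq.2 c hc.2

/-- Regularity along the variable `y` with steep slope, with `z` as a parameter. -/
theorem LinkReg.of_y {s : Set Θ} {L : ℝ} {m : Θ → ℂ → ℂ → ℂ} {t₀ : Θ} {y₀ z₀ : ℂ} {k : ℝ}
    (hk0 : 0 ≤ k) {A : ℂ →L[ℝ] ℂ} (hA : k + L * ‖A‖ < 1) {U : Set ℂ} (hU : U ∈ 𝓝 y₀)
    (hev : ∀ᶠ p in 𝓝[s ×ˢ (univ : Set ℂ)] (t₀, z₀), MRegOn k (fun y => m p.1 y p.2) A U) :
    LinkReg s L m t₀ y₀ z₀ := by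
  rw [nhdsWithin_prod_eq, nhdsWithin_univ, eventually_prod_iff] at hev
  obtain ⟨pa, ha, pb, hb, hab⟩ := hev
  refine ⟨k, hk0, (ContinuousLinearMap.inl ℝ ℂ ℂ).comp A, ?_, U ×ˢ {z | pb z},
    prod_mem_nhds hU hb, ?_⟩
  · have : (ContinuousLinearMap.fst ℝ ℂ ℂ).comp ((ContinuousLinearMap.inl ℝ ℂ ℂ).comp A) = A := by
      ext c; all_goals simp
    rwa [this]
  · filter_upwards [ha] with t ht q hq c hc
    have e1 : q + ((ContinuousLinearMap.inl ℝ ℂ ℂ).comp A) c = (q.1 + A c, q.2) := by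
      ext <;> simp
    rw [e1] at hc ⊢
    exact hab ht hq.2 q.1 hq.1 c hc.1

/-- A link which is regular for a larger Lipschitz constant is regular for a smaller one. -/
theorem LinkReg.mono_lip {s : Set Θ} {L L' : ℝ} (hL : L' ≤ L) {m : Θ → ℂ → ℂ → ℂ} {t₀ : Θ}
    {y₀ z₀ : ℂ} (h : LinkReg s L m t₀ y₀ z₀) : LinkReg s L' m t₀ y₀ z₀ := by
  obtain ⟨k, hk, A, hA, U, hU, hev⟩ := h
  exact ⟨k, hk, A, lt_of_le_of_lt (by gcongr) hA, U, hU, hev⟩

theorem Tame.mono {s s' : Set Θ} (hs : s' ⊆ s) {L : ℝ} {F : Θ → E × ℂ → ℂ} (h : Tame s L F) :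
    Tame s' L F :=
  ⟨h.fam.mono hs, fun t ht => h.lip t (hs ht), fun t ht X hX h0 =>
    (h.zreg t (hs ht) X hX h0).mono (prod_mono hs Subset.rfl)⟩

theorem Tame.mono_lip {s : Set Θ} {L L' : ℝ} (hL : L ≤ L') {F : Θ → E × ℂ → ℂ}
    (h : Tame s L F) : Tame s L' F :=
  ⟨h.fam, fun t ht X y y' => (h.lip t ht X y y').trans
    (mul_le_mul_of_nonneg_right hL (norm_nonneg _)), h.zreg⟩

theorem Tame.param {Θ' : Type*} [TopologicalSpace Θ'] {s : Set Θ} {s' : Set Θ'} {L : ℝ}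
    {F : Θ → E × ℂ → ℂ} (h : Tame s L F) {φ : Θ' → Θ} (hφ : ContinuousOn φ s')
    (hs : MapsTo φ s' s) : Tame s' L (fun t => F (φ t)) where
  fam := h.fam.param hφ hs
  lip := fun t ht => h.lip _ (hs ht)
  zreg := fun t ht X hX h0 => by
    refine RegAt.param (s := s ×ˢ (univ : Set ℂ)) (φ := fun p : Θ' × ℂ => (φ p.1, p.2))
      (F := fun (p : Θ × ℂ) X => F p.1 (X, p.2)) ?_ ?_ (h.zreg _ (hs ht) X hX h0)
    · refine ContinuousWithinAt.prodMk ?_ continuousWithinAt_snd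
      exact (hφ t ht).comp continuousWithinAt_fst fun p hp => hp.1
    · exact fun p hp => ⟨hs hp.1, mem_univ _⟩

theorem Link.mono {s s' : Set Θ} (hs : s' ⊆ s) {L L' : ℝ} {m : Θ → ℂ → ℂ → ℂ}
    (h : Link s L L' m) : Link s' L L' m where
  cont := h.cont.mono (prod_mono hs Subset.rfl)
  hom := fun t ht => h.hom t (hs ht)
  zero := fun t ht => h.zero t (hs ht)
  lip := fun t ht => h.lip t (hs ht)
  small := fun t ht y hy ε hε => by
    obtain ⟨U, hU, hev⟩ := h.small t (hs ht) y hy ε hε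
    exact ⟨U, hU, hev.filter_mono (nhdsWithin_mono _ (prod_mono hs Subset.rfl))⟩
  reg := fun t ht y z hz => (h.reg t (hs ht) y z hz).mono_set hs

theorem Link.mono_lip {s : Set Θ} {L₁ L L' L'₁ : ℝ} (hL : L₁ ≤ L) (hL' : L' ≤ L'₁)
    {m : Θ → ℂ → ℂ → ℂ} (h : Link s L L' m) : Link s L₁ L'₁ m where
  cont := h.cont
  hom := h.hom
  zero := h.zero
  lip := fun t ht y z z' => (h.lip t ht y z z').trans
    (mul_le_mul_of_nonneg_right hL' (norm_nonneg _))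
  small := h.small
  reg := fun t ht y z hz => (h.reg t ht y z hz).mono_lip hL

theorem Link.param {Θ' : Type*} [TopologicalSpace Θ'] {s : Set Θ} {s' : Set Θ'} {L L' : ℝ}
    {m : Θ → ℂ → ℂ → ℂ} (h : Link s L L' m) {φ : Θ' → Θ} (hφ : ContinuousOn φ s')
    (hs : MapsTo φ s' s) : Link s' L L' (fun t => m (φ t)) := by
  have key : ∀ t ∈ s', ∀ z : ℂ, Tendsto (fun p : Θ' × ℂ => (φ p.1, p.2))
      (𝓝[s' ×ˢ (univ : Set ℂ)] (t, z)) (𝓝[s ×ˢ (univ : Set ℂ)] (φ t, z)) := by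
    intro t ht z
    have h1 : ContinuousWithinAt (fun p : Θ' × ℂ => (φ p.1, p.2)) (s' ×ˢ (univ : Set ℂ)) (t, z) :=
      ContinuousWithinAt.prodMk ((hφ t ht).comp continuousWithinAt_fst fun p hp => hp.1)
        continuousWithinAt_snd
    exact h1.tendsto_nhdsWithin fun p hp => ⟨hs hp.1, mem_univ _⟩
  refine ⟨?_, fun t ht => h.hom _ (hs ht), fun t ht => h.zero _ (hs ht),
    fun t ht => h.lip _ (hs ht), fun t ht y hy ε hε => ?_, fun t ht y z hz => ?_⟩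
  · have h1 : ContinuousOn (fun p : Θ' × (ℂ × ℂ) => (φ p.1, p.2)) (s' ×ˢ univ) :=
      (hφ.comp continuousOn_fst (fun p hp => hp.1)).prodMk continuousOn_snd
    exact h.cont.comp h1 (fun p hp => ⟨hs hp.1, mem_univ _⟩)
  · obtain ⟨U, hU, hev⟩ := h.small _ (hs ht) y hy ε hε
    exact ⟨U, hU, (key t ht 0).eventually hev⟩
  · obtain ⟨k, hk, A, hA, U, hU, hev⟩ := h.reg _ (hs ht) y z hz
    exact ⟨k, hk, A, hA, U, hU, ((hφ t ht).tendsto_nhdsWithin hs).eventually hev⟩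

/-- The regularity at the points where the new variable vanishes. -/
theorem Tame.tail_zreg {s : Set Θ} {L L' : ℝ} {F : Θ → E × ℂ → ℂ} (hF : Tame s L F)
    {m : Θ → ℂ → ℂ → ℂ} (hm : Link s L L' m) {t₀ : Θ} (ht₀ : t₀ ∈ s) {X₀ : E × ℂ} (hX₀ : X₀ ≠ 0)
    (h0 : 0 ≤ (F t₀ X₀).re) :
    RegAt (s ×ˢ (univ : Set ℂ)) (fun (p : Θ × ℂ) (X : E × ℂ) => F p.1 X + m p.1 X.2 p.2)
      (t₀, 0) X₀ := by
  by_cases hy : X₀.2 = 0
  · have hX : X₀.1 ≠ 0 := fun e => hX₀ (Prod.ext e hy)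
    refine RegAt.fst ?_
    have h1 : RegAt (s ×ˢ (univ : Set ℂ)) (fun (p : Θ × ℂ) X => F p.1 (X, p.2)) (t₀, 0) X₀.1 := by
      refine hF.zreg t₀ ht₀ X₀.1 hX ?_
      have e : (X₀.1, (0 : ℂ)) = X₀ := Prod.ext rfl hy.symm
      rwa [e]
    have h2 : RegAt ((s ×ˢ (univ : Set ℂ)) ×ˢ (univ : Set ℂ))
        (fun (tb : (Θ × ℂ) × ℂ) X => F tb.1.1 (X, tb.2)) ((t₀, 0), X₀.2) X₀.1 := by
      rw [hy]
      refine RegAt.param (s := s ×ˢ (univ : Set ℂ)) (φ := fun tb : (Θ × ℂ) × ℂ => (tb.1.1, tb.2))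
        (F := fun (p : Θ × ℂ) X => F p.1 (X, p.2)) ?_ (fun p hp => ⟨hp.1.1, mem_univ _⟩) h1
      exact (continuousWithinAt_fst.fst).prodMk continuousWithinAt_snd
    have h3 := RegAt.add_const h2 (fun tb : (Θ × ℂ) × ℂ => m tb.1.1 tb.2 tb.1.2)
    refine h3.congr ⟨univ, univ_mem, Eventually.of_forall fun tb X _ => ?_⟩
    exact add_comm _ _
  · obtain ⟨k, hk0, hk1, A, U, hU, hev⟩ := hF.fam.reg t₀ ht₀ X₀ hX₀ h0
    have hε : 0 < (1 - k) / (2 * (‖A‖ + 1)) := by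
      have : 0 ≤ ‖A‖ := norm_nonneg _
      exact div_pos (by linarith) (by linarith)
    obtain ⟨V, hV, hev'⟩ := hm.small t₀ ht₀ X₀.2 hy _ hε
    refine ⟨k + (1 - k) / 2, by linarith, by linarith, A, U ∩ Prod.snd ⁻¹' V,
      inter_mem hU (continuous_snd.continuousAt.preimage_mem_nhds hV), ?_⟩
    have hev2 : ∀ᶠ p : Θ × ℂ in 𝓝[s ×ˢ (univ : Set ℂ)] (t₀, (0 : ℂ)), MRegOn k (F p.1) A U := by
      have h1 : Tendsto Prod.fst (𝓝[s ×ˢ (univ : Set ℂ)] (t₀, (0 : ℂ))) (𝓝[s] t₀) :=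
        continuousWithinAt_fst.tendsto_nhdsWithin fun p hp => hp.1
      exact h1.eventually hev
    filter_upwards [hev2, hev'] with p e1 e2
    refine MRegOn.add_lip (e1.mono inter_subset_left) (l := (1 - k) / 2) fun x hx c hc => ?_
    have h3 := e2 _ hc.2 _ hx.2
    refine h3.trans ?_
    have h4 : (x + A c).2 - x.2 = (A c).2 := by simp
    rw [h4]
    have h5 : ‖(A c).2‖ ≤ (‖A‖ + 1) * ‖c‖ :=
      (norm_snd_le _).trans ((A.le_opNorm c).trans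
        (mul_le_mul_of_nonneg_right (by linarith) (norm_nonneg _)))
    have h6 : 0 < ‖A‖ + 1 := by positivity
    calc (1 - k) / (2 * (‖A‖ + 1)) * ‖(A c).2‖
        ≤ (1 - k) / (2 * (‖A‖ + 1)) * ((‖A‖ + 1) * ‖c‖) :=
          mul_le_mul_of_nonneg_left h5 hε.le
      _ = (1 - k) / 2 * ‖c‖ := by field_simp

/-- **Tail lemma.** -/
theorem Tame.tail {s : Set Θ} {L L' : ℝ} {F : Θ → E × ℂ → ℂ} (hF : Tame s L F)
    {m : Θ → ℂ → ℂ → ℂ} (hm : Link s L L' m) :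
    Tame s L' (fun t (p : (E × ℂ) × ℂ) => F t p.1 + m t p.1.2 p.2) where
  fam :=
    { cont := by
        have h1 : ContinuousOn (fun p : Θ × ((E × ℂ) × ℂ) => (p.1, p.2.1)) (s ×ˢ univ) :=
          (continuous_fst.prodMk (continuous_fst.comp continuous_snd)).continuousOn
        have h2 : ContinuousOn (fun p : Θ × ((E × ℂ) × ℂ) => (p.1, (p.2.1.2, p.2.2)))
            (s ×ˢ univ) :=
          (continuous_fst.prodMk ((continuous_snd.comp (continuous_fst.comp continuous_snd)).prodMk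
            (continuous_snd.comp continuous_snd))).continuousOn
        exact (hF.fam.cont.comp h1 (fun p hp => ⟨hp.1, mem_univ _⟩)).add
          (hm.cont.comp h2 (fun p hp => ⟨hp.1, mem_univ _⟩))
      hom := fun t ht r hr p => by
        simp only [Prod.smul_fst, Prod.smul_snd, smul_add]
        rw [hF.fam.hom t ht r hr, hm.hom t ht r hr]
      reg := by
        rintro t₀ ht₀ ⟨X₀, z₀⟩ hne h0
        by_cases hz : z₀ = 0
        · subst hz
          have hX : X₀ ≠ 0 := by rintro rfl; exact hne rfl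
          refine RegAt.fst ?_
          refine Tame.tail_zreg hF hm ht₀ hX ?_
          have e : F t₀ X₀ + m t₀ X₀.2 0 = F t₀ X₀ := by rw [hm.zero t₀ ht₀, add_zero]
          have h1 : 0 ≤ (F t₀ X₀ + m t₀ X₀.2 0).re := h0
          rwa [e] at h1
        · obtain ⟨k, hk, A, hA, U, hU, hev⟩ := hm.reg t₀ ht₀ X₀.2 z₀ hz
          have hL : 0 ≤ L := by
            have h1 := hF.lip t₀ ht₀ 0 1 0
            have := (norm_nonneg _).trans h1
            simpa using this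
          refine ⟨k + L * ‖(ContinuousLinearMap.fst ℝ ℂ ℂ).comp A‖, by positivity, hA,
            (((ContinuousLinearMap.inl ℝ (E × ℂ) ℂ).comp
              (ContinuousLinearMap.inr ℝ E ℂ)).comp ((ContinuousLinearMap.fst ℝ ℂ ℂ).comp A)) +
            (ContinuousLinearMap.inr ℝ (E × ℂ) ℂ).comp ((ContinuousLinearMap.snd ℝ ℂ ℂ).comp A),
            (fun x : (E × ℂ) × ℂ => (x.1.2, x.2)) ⁻¹' U, ?_, ?_⟩
          · have hc : Continuous fun x : (E × ℂ) × ℂ => (x.1.2, x.2) := by fun_prop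
            exact hc.continuousAt.preimage_mem_nhds hU
          · filter_upwards [hev, self_mem_nhdsWithin] with t e1 e2 x hx c hc
            have e3 : x + ((((ContinuousLinearMap.inl ℝ (E × ℂ) ℂ).comp
              (ContinuousLinearMap.inr ℝ E ℂ)).comp ((ContinuousLinearMap.fst ℝ ℂ ℂ).comp A)) +
              (ContinuousLinearMap.inr ℝ (E × ℂ) ℂ).comp
                ((ContinuousLinearMap.snd ℝ ℂ ℂ).comp A)) c =
              ((x.1.1, x.1.2 + (A c).1), x.2 + (A c).2) := by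
              ext <;> simp
            rw [e3] at hc ⊢
            have e4 : (x.1.2, x.2) + A c = (x.1.2 + (A c).1, x.2 + (A c).2) := rfl
            have e5 := e1 (x.1.2, x.2) hx c (by rw [e4]; exact hc)
            rw [e4] at e5
            have e6 := hF.lip t e2 x.1.1 (x.1.2 + (A c).1) x.1.2
            rw [add_sub_cancel_left] at e6
            have e7 : ‖(A c).1‖ ≤ ‖(ContinuousLinearMap.fst ℝ ℂ ℂ).comp A‖ * ‖c‖ :=
              ((ContinuousLinearMap.fst ℝ ℂ ℂ).comp A).le_opNorm c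
            have e8 : F t (x.1.1, x.1.2 + (A c).1) + m t (x.1.2 + (A c).1) (x.2 + (A c).2) -
                (F t x.1 + m t x.1.2 x.2) - c =
                (m t (x.1.2 + (A c).1) (x.2 + (A c).2) - m t x.1.2 x.2 - c) +
                (F t (x.1.1, x.1.2 + (A c).1) - F t (x.1.1, x.1.2)) := by
              ring
            show ‖F t (x.1.1, x.1.2 + (A c).1) + m t (x.1.2 + (A c).1) (x.2 + (A c).2) -
                (F t x.1 + m t x.1.2 x.2) - c‖ ≤ _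
            rw [e8]
            refine (norm_add_le _ _).trans ?_
            have e9 : L * ‖(A c).1‖ ≤ L * (‖(ContinuousLinearMap.fst ℝ ℂ ℂ).comp A‖ * ‖c‖) :=
              mul_le_mul_of_nonneg_left e7 hL
            calc _ ≤ k * ‖c‖ + L * (‖(ContinuousLinearMap.fst ℝ ℂ ℂ).comp A‖ * ‖c‖) :=
                  add_le_add e5 (e6.trans e9)
              _ = _ := by ring }
  lip := fun t ht X z z' => by
    show ‖F t X + m t X.2 z - (F t X + m t X.2 z')‖ ≤ L' * ‖z - z'‖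
    rw [add_sub_add_left_eq_sub]
    exact hm.lip t ht X.2 z z'
  zreg := fun t₀ ht₀ X₀ hX₀ h0 => by
    refine Tame.tail_zreg hF hm ht₀ hX₀ ?_
    have e : F t₀ X₀ + m t₀ X₀.2 0 = F t₀ X₀ := by rw [hm.zero t₀ ht₀, add_zero]
    have h1 : 0 ≤ (F t₀ X₀ + m t₀ X₀.2 0).re := h0
    rwa [e] at h1

end Vale.Agent.P268.T
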