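import Vale.Agent.P268.T.HEq

/-!
# P268, topological half: continuous selections, joint strict differentiability
-/

set_option linter.unusedSectionVars false

namespace Vale.Agent.P268.T

open Set Filter Topology

/-- A continuous selection of two Lipschitz functions is Lipschitz. -/
theorem select_lip {Z : Type*} [NormedAddCommGroup Z] {f g₁ g₂ : ℝ → Z} {K : ℝ}
    (hf : ContinuousOn f (Icc 0 1)) (hsel : ∀ τ ∈ Icc (0 : ℝ) 1, f τ = g₁ τ ∨ f τ = g₂ τ)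
    (h₁ : ∀ τ ∈ Icc (0 : ℝ) 1, ∀ τ' ∈ Icc (0 : ℝ) 1, τ ≤ τ' → ‖g₁ τ' - g₁ τ‖ ≤ K * (τ' - τ))
    (h₂ : ∀ τ ∈ Icc (0 : ℝ) 1, ∀ τ' ∈ Icc (0 : ℝ) 1, τ ≤ τ' → ‖g₂ τ' - g₂ τ‖ ≤ K * (τ' - τ)) :
    ‖f 1 - f 0‖ ≤ K := by
  have key : ∀ g g' : ℝ → Z, (∀ τ ∈ Icc (0 : ℝ) 1, f τ = g τ ∨ f τ = g' τ) →
      (∀ τ ∈ Icc (0 : ℝ) 1, ∀ τ' ∈ Icc (0 : ℝ) 1, τ ≤ τ' → ‖g τ' - g τ‖ ≤ K * (τ' - τ)) →
      (∀ τ ∈ Icc (0 : ℝ) 1, ∀ τ' ∈ Icc (0 : ℝ) 1, τ ≤ τ' → ‖g' τ' - g' τ‖ ≤ K * (τ' - τ)) →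
      f 0 = g 0 → ‖f 1 - f 0‖ ≤ K := by
    intro g g' hs hg hg' h0
    have hcont : ∀ h : ℝ → Z, (∀ τ ∈ Icc (0 : ℝ) 1, ∀ τ' ∈ Icc (0 : ℝ) 1, τ ≤ τ' →
        ‖h τ' - h τ‖ ≤ K * (τ' - τ)) → ContinuousOn h (Icc 0 1) := by
      intro h hh
      have hK : 0 ≤ K := by
        have := (norm_nonneg _).trans (hh 0 ⟨le_rfl, zero_le_one⟩ 1 ⟨zero_le_one, le_rfl⟩
          zero_le_one)
        linarith
      refine LipschitzOnWith.continuousOn (K := ⟨K, hK⟩) ?_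
      refine LipschitzOnWith.of_dist_le_mul fun x hx y hy => ?_
      rw [dist_eq_norm, dist_eq_norm, Real.norm_eq_abs]
      show ‖h x - h y‖ ≤ K * |x - y|
      rcases le_total x y with hxy | hxy
      · rw [norm_sub_rev, abs_sub_comm, abs_of_nonneg (by linarith)]
        exact hh x hx y hy hxy
      · rw [abs_of_nonneg (by linarith)]
        exact hh y hy x hx hxy
    have hgc := hcont g hg
    have hg'c := hcont g' hg'
    set S : Set ℝ := {τ | τ ∈ Icc (0 : ℝ) 1 ∧ f τ = g τ} with hS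
    have hclosed : IsCompact S := by
      have h1 : IsClosed S := by
        have h2 : S = Icc (0 : ℝ) 1 ∩ (fun τ => f τ - g τ) ⁻¹' {0} := by
          ext τ
          simp [hS, sub_eq_zero]
        rw [h2]
        exact (hf.sub hgc).preimage_isClosed_of_isClosed isClosed_Icc isClosed_singleton
      exact isCompact_Icc.of_isClosed_subset h1 fun τ hτ => hτ.1
    obtain ⟨σ, hσ, hσmax⟩ := hclosed.exists_isGreatest ⟨0, ⟨le_rfl, zero_le_one⟩, h0⟩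
    have hσ1 := hσ.1
    rcases hσ1.2.eq_or_lt with e | hlt
    · have h1 : f 1 = g 1 := by rw [← e]; exact hσ.2
      rw [h1, h0]
      simpa using hg 0 ⟨le_rfl, zero_le_one⟩ 1 ⟨zero_le_one, le_rfl⟩ zero_le_one
    · have h1 : ∀ τ ∈ Ioc σ 1, f τ = g' τ := by
        intro τ hτ
        have hτ' : τ ∈ Icc (0 : ℝ) 1 := ⟨hσ1.1.trans hτ.1.le, hτ.2⟩
        rcases hs τ hτ' with h | h
        · exact absurd (hσmax ⟨hτ', h⟩) (not_le.mpr hτ.1)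
        · exact h
      have h2 : f σ = g' σ := by
        have hsub : Ioc σ 1 ⊆ Icc (0 : ℝ) 1 := fun τ hτ => ⟨hσ1.1.trans hτ.1.le, hτ.2⟩
        have e1 : Tendsto f (𝓝[Ioc σ 1] σ) (𝓝 (f σ)) := (hf σ hσ1).mono hsub
        have e2 : Tendsto g' (𝓝[Ioc σ 1] σ) (𝓝 (g' σ)) := (hg'c σ hσ1).mono hsub
        have e3 : Tendsto f (𝓝[Ioc σ 1] σ) (𝓝 (g' σ)) :=
          e2.congr' (by filter_upwards [self_mem_nhdsWithin] with τ hτ using (h1 τ hτ).symm)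
        have : (𝓝[Ioc σ 1] σ).NeBot := by
          rw [nhdsWithin_Ioc_eq_nhdsGT hlt]; infer_instance
        exact tendsto_nhds_unique e1 e3
      have h3 : f 1 = g' 1 := h1 1 ⟨hlt, le_rfl⟩
      have e1 := hg 0 ⟨le_rfl, zero_le_one⟩ σ hσ1 hσ1.1
      have e2 := hg' σ hσ1 1 ⟨zero_le_one, le_rfl⟩ hlt.le
      have e3 : f 1 - f 0 = (g' 1 - g' σ) + (g σ - g 0) := by
        rw [h3, h0, ← h2, hσ.2]; abel
      rw [e3]
      refine (norm_add_le _ _).trans ?_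
      linarith
  rcases hsel 0 ⟨le_rfl, zero_le_one⟩ with h | h
  · exact key g₁ g₂ hsel h₁ h₂ h
  · exact key g₂ g₁ (fun τ hτ => (hsel τ hτ).symm) h₂ h₁ h

section

variable {E : Type*} [NormedAddCommGroup E] [NormedSpace ℝ E]
  {Z : Type*} [NormedAddCommGroup Z] [NormedSpace ℝ Z]
  {T : Type*} [TopologicalSpace T]

/-- A continuous selection of two functions which are regular along a common direction. -/
theorem MRegOn.select {k : ℝ} {F G₁ G₂ : E → Z} {A : Z →L[ℝ] E} {U : Set E} (hU : Convex ℝ U)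
    (hF : ContinuousOn F U) (hsel : ∀ x ∈ U, F x = G₁ x ∨ F x = G₂ x)
    (h₁ : MRegOn k G₁ A U) (h₂ : MRegOn k G₂ A U) : MRegOn k F A U := by
  intro x hx c hc
  have hmem : ∀ τ ∈ Icc (0 : ℝ) 1, x + τ • A c ∈ U := fun τ hτ =>
    hU.add_smul_mem hx hc hτ
  have hg : ∀ G : E → Z, MRegOn k G A U → ∀ τ ∈ Icc (0 : ℝ) 1, ∀ τ' ∈ Icc (0 : ℝ) 1, τ ≤ τ' →
      ‖(G (x + τ' • A c) - τ' • c) - (G (x + τ • A c) - τ • c)‖ ≤ (k * ‖c‖) * (τ' - τ) := by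
    intro G hG τ hτ τ' hτ' hle
    have e1 : x + τ' • A c = x + τ • A c + A ((τ' - τ) • c) := by
      rw [map_smul, sub_smul]; abel
    have e2 := hG (x + τ • A c) (hmem τ hτ) ((τ' - τ) • c) (by rw [← e1]; exact hmem τ' hτ')
    rw [← e1, norm_smul, Real.norm_eq_abs, abs_of_nonneg (by linarith)] at e2
    have e3 : (G (x + τ' • A c) - τ' • c) - (G (x + τ • A c) - τ • c) =
        G (x + τ' • A c) - G (x + τ • A c) - (τ' - τ) • c := by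
      rw [sub_smul]; abel
    rw [e3]
    calc _ ≤ k * ((τ' - τ) * ‖c‖) := e2
      _ = _ := by ring
  have := select_lip (f := fun τ => F (x + τ • A c) - τ • c)
    (g₁ := fun τ => G₁ (x + τ • A c) - τ • c) (g₂ := fun τ => G₂ (x + τ • A c) - τ • c)
    (K := k * ‖c‖) ?_ ?_ (hg G₁ h₁) (hg G₂ h₂)
  · simp only [one_smul, zero_smul, add_zero, sub_zero] at this
    have e : F (x + A c) - F x - c = F (x + A c) - c - F x := by abel
    rw [e]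
    exact this
  · refine ContinuousOn.sub (hF.comp ?_ hmem) (by fun_prop)
    fun_prop
  · intro τ hτ
    rcases hsel _ (hmem τ hτ) with h | h
    · exact Or.inl (congrArg (· - τ • c) h)
    · exact Or.inr (congrArg (· - τ • c) h)

/-- Metric regularity along `A` from uniform strict differentiability. -/
theorem exists_mregOn_of_strict {s : Set T} {F : T → E → Z} {t₀ : T} {x₀ : E}
    (F' : E →L[ℝ] Z) (A : Z →L[ℝ] E) (hA : ∀ c, F' (A c) = c)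
    (h : ∀ ε > 0, ∃ U ∈ 𝓝 x₀, ∀ᶠ t in 𝓝[s] t₀, ∀ y ∈ U, ∀ z ∈ U,
      ‖F t y - F t z - F' (y - z)‖ ≤ ε * ‖y - z‖) {k : ℝ} (hk : 0 < k) :
    ∃ U ∈ 𝓝 x₀, ∀ᶠ t in 𝓝[s] t₀, MRegOn k (F t) A U := by
  obtain ⟨U, hU, hev⟩ := h (k / (‖A‖ + 1)) (by positivity)
  refine ⟨U, hU, ?_⟩
  filter_upwards [hev] with t ht x hx c hc
  have h1 := ht _ hc x hx
  rw [add_sub_cancel_left, hA] at h1
  refine h1.trans ?_
  have h2 : ‖A c‖ ≤ (‖A‖ + 1) * ‖c‖ :=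
    (A.le_opNorm c).trans (mul_le_mul_of_nonneg_right (by linarith) (norm_nonneg _))
  calc k / (‖A‖ + 1) * ‖A c‖ ≤ k / (‖A‖ + 1) * ((‖A‖ + 1) * ‖c‖) :=
        mul_le_mul_of_nonneg_left h2 (by positivity)
    _ = k * ‖c‖ := by
        have : ‖A‖ + 1 ≠ 0 := by positivity
        field_simp

/-- Uniform strict differentiability in the space variable from joint strict
differentiability. -/
theorem strict_of_joint {P : Type*} [NormedAddCommGroup P] [NormedSpace ℝ P] {s : Set P}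
    {F : P → E → Z} {t₀ : P} {x₀ : E} {F' : P × E →L[ℝ] Z}
    (hF : HasStrictFDerivAt (fun p : P × E => F p.1 p.2) F' (t₀, x₀)) {ε : ℝ} (hε : 0 < ε) :
    ∃ U ∈ 𝓝 x₀, ∀ᶠ t in 𝓝[s] t₀, ∀ y ∈ U, ∀ z ∈ U,
      ‖F t y - F t z - (F'.comp (ContinuousLinearMap.inr ℝ P E)) (y - z)‖ ≤ ε * ‖y - z‖ := by
  have h1 : ∀ᶠ q : (P × E) × (P × E) in 𝓝 ((t₀, x₀), (t₀, x₀)),
      ‖F q.1.1 q.1.2 - F q.2.1 q.2.2 - F' (q.1 - q.2)‖ ≤ ε * ‖q.1 - q.2‖ :=
    hF.isLittleO.def hε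
  rw [nhds_prod_eq] at h1
  obtain ⟨V₁, hV₁, V₂, hV₂, h2⟩ := Filter.mem_prod_iff.mp h1
  have hV : V₁ ∩ V₂ ∈ 𝓝 (t₀, x₀) := inter_mem hV₁ hV₂
  rw [nhds_prod_eq] at hV
  obtain ⟨W, hW, U, hU, hWU⟩ := Filter.mem_prod_iff.mp hV
  refine ⟨U, hU, ?_⟩
  filter_upwards [mem_nhdsWithin_of_mem_nhds hW] with t ht y hy z hz
  have h3 : ((t, y), (t, z)) ∈ V₁ ×ˢ V₂ :=
    ⟨(hWU (mk_mem_prod ht hy)).1, (hWU (mk_mem_prod ht hz)).2⟩
  have h4 : ‖F t y - F t z - F' ((t, y) - (t, z))‖ ≤ ε * ‖(t, y) - (t, z)‖ := h2 h3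
  have h5 : ((t, y) : P × E) - (t, z) = (0, y - z) := by simp
  rw [h5] at h4
  have h6 : ‖((0 : P), y - z)‖ = ‖y - z‖ := by
    rw [Prod.norm_def, norm_zero]
    exact max_eq_right (norm_nonneg _)
  rw [h6] at h4
  exact h4

/-- Regularity from joint strict differentiability. -/
theorem RegAt.of_joint [FiniteDimensional ℝ Z] {P : Type*} [NormedAddCommGroup P]
    [NormedSpace ℝ P] {s : Set P} {F : P → E → Z} {t₀ : P} {x₀ : E} {F' : P × E →L[ℝ] Z}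
    (hF : HasStrictFDerivAt (fun p : P × E => F p.1 p.2) F' (t₀, x₀))
    (hs : ∀ c, ∃ v, F' (0, v) = c) : RegAt s F t₀ x₀ :=
  RegAt.of_strict (F'.comp (ContinuousLinearMap.inr ℝ P E))
    (fun c => by obtain ⟨v, hv⟩ := hs c; exact ⟨v, by simpa using hv⟩)
    fun _ hε => strict_of_joint hF hε

end

end Vale.Agent.P268.T
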