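import Vale.Agent.P268.T.H548.Defs
import Vale.Agent.P268.T.H548.Select

/-!
# P268, topological half: `lk` is a link
-/

set_option linter.unusedSectionVars false

namespace Vale.Agent.P268.T

open Set Filter Topology

/-! ### Phases -/

theorem ph_zero : ph 0 = 0 := by simp [ph]

theorem norm_ph {z : ℂ} (hz : z ≠ 0) : ‖ph z‖ = 1 := by
  rw [ph, norm_div, Complex.norm_real, norm_norm, div_self (norm_ne_zero_iff.mpr hz)]

theorem norm_ph_le (z : ℂ) : ‖ph z‖ ≤ 1 := by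
  rcases eq_or_ne z 0 with rfl | hz
  · rw [ph_zero, norm_zero]; exact zero_le_one
  · exact (norm_ph hz).le

theorem ph_ne {z : ℂ} (hz : z ≠ 0) : ph z ≠ 0 := by
  rw [← norm_ne_zero_iff, norm_ph hz]; exact one_ne_zero

theorem ph_smul {r : ℝ} (hr : 0 < r) (z : ℂ) : ph (r • z) = ph z := by
  rw [ph, ph, norm_smul, Real.norm_eq_abs, abs_of_pos hr, Complex.real_smul]
  push_cast
  rw [mul_div_mul_left _ _ (by exact_mod_cast hr.ne')]

theorem norm_mul_ph (z : ℂ) : ((‖z‖ : ℝ) : ℂ) * ph z = z := by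
  rcases eq_or_ne z 0 with rfl | hz
  · simp
  · rw [ph, mul_div_cancel₀]
    exact_mod_cast norm_ne_zero_iff.mpr hz

theorem contDiffAt_ph {z : ℂ} (hz : z ≠ 0) : ContDiffAt ℝ 1 ph z := by
  have h1 : ContDiffAt ℝ 1 (fun z : ℂ => ((‖z‖ : ℝ) : ℂ)) z :=
    Complex.ofRealCLM.contDiff.contDiffAt.comp z (contDiffAt_norm ℝ hz)
  have h2 : ContDiffAt ℝ 1 (fun z : ℂ => z * (((‖z‖ : ℝ) : ℂ))⁻¹) z :=
    ContDiffAt.mul contDiffAt_id
      (h1.inv (Complex.ofReal_ne_zero.mpr (norm_ne_zero_iff.mpr hz)))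
  exact h2

theorem continuousAt_ph {z : ℂ} (hz : z ≠ 0) : ContinuousAt ph z := (contDiffAt_ph hz).continuousAt

theorem ph_lip_aux {z z' : ℂ} (h : ‖z‖ ≤ ‖z'‖) : ‖z‖ * ‖ph z - ph z'‖ ≤ ‖z - z'‖ := by
  rcases eq_or_ne z 0 with rfl | hz
  · simp
  have hz' : z' ≠ 0 := by
    rw [← norm_pos_iff]
    exact (norm_pos_iff.mpr hz).trans_le h
  refine abs_le_of_sq_le_sq' ?_ (norm_nonneg _) |>.2
  set u := ph z with hu
  set v := ph z' with hv
  have e1 : z = (‖z‖ : ℝ) • u := by rw [Complex.real_smul]; exact (norm_mul_ph z).symm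
  have e2 : z' = (‖z'‖ : ℝ) • v := by rw [Complex.real_smul]; exact (norm_mul_ph z').symm
  have hu1 : ‖u‖ = 1 := norm_ph hz
  have hv1 : ‖v‖ = 1 := norm_ph hz'
  have e3 : ‖z - z'‖ ^ 2 = ‖z‖ ^ 2 - 2 * (‖z‖ * ‖z'‖ * inner ℝ u v) + ‖z'‖ ^ 2 := by
    rw [norm_sub_sq_real]
    congr 3
    conv_lhs => rw [e1, e2]
    rw [real_inner_smul_left, real_inner_smul_right]
    ring
  have e4 : ‖u - v‖ ^ 2 = 2 - 2 * inner ℝ u v := by
    rw [norm_sub_sq_real, hu1, hv1]; ring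
  have e5 : inner ℝ u v ≤ 1 := by
    have := real_inner_le_norm u v
    rw [hu1, hv1] at this
    linarith
  rw [mul_pow, e3, e4]
  have h0 : 0 ≤ ‖z‖ := norm_nonneg z
  nlinarith [mul_nonneg (sub_nonneg.mpr h) (sub_nonneg.mpr h),
    mul_nonneg (mul_nonneg h0 (sub_nonneg.mpr h)) (sub_nonneg.mpr e5)]

theorem norm_pow_sub_le {u v : ℂ} (hu : ‖u‖ ≤ 1) (hv : ‖v‖ ≤ 1) (a : ℕ) :
    ‖u ^ a - v ^ a‖ ≤ a * ‖u - v‖ := by
  induction a with
  | zero => simp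
  | succ a ih =>
    have e : u ^ (a + 1) - v ^ (a + 1) = u * (u ^ a - v ^ a) + (u - v) * v ^ a := by ring
    rw [e]
    refine (norm_add_le _ _).trans ?_
    rw [norm_mul, norm_mul, norm_pow]
    have h1 : ‖u‖ * ‖u ^ a - v ^ a‖ ≤ 1 * (a * ‖u - v‖) :=
      mul_le_mul hu ih (norm_nonneg _) zero_le_one
    have h2 : ‖u - v‖ * ‖v‖ ^ a ≤ ‖u - v‖ * 1 :=
      mul_le_mul_of_nonneg_left (pow_le_one₀ (norm_nonneg _) hv) (norm_nonneg _)
    push_cast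
    linarith

/-- Phases with a nonexpanding truncated modulus are Lipschitz. -/
theorem trunc_lip {c : ℝ} (hc : 0 ≤ c) {w : ℂ} (hw : ‖w‖ ≤ 1) (a : ℕ) (z z' : ℂ) :
    ‖((min ‖z‖ c : ℝ) : ℂ) * (w * ph z ^ a) - ((min ‖z'‖ c : ℝ) : ℂ) * (w * ph z' ^ a)‖ ≤
      (1 + a) * ‖z - z'‖ := by
  have key : ∀ z z' : ℂ, ‖z‖ ≤ ‖z'‖ →
      ‖((min ‖z‖ c : ℝ) : ℂ) * (w * ph z ^ a) - ((min ‖z'‖ c : ℝ) : ℂ) * (w * ph z' ^ a)‖ ≤
        (1 + a) * ‖z - z'‖ := by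
    intro z z' h
    have e : ((min ‖z‖ c : ℝ) : ℂ) * (w * ph z ^ a) - ((min ‖z'‖ c : ℝ) : ℂ) * (w * ph z' ^ a) =
        ((min ‖z‖ c : ℝ) : ℂ) * w * (ph z ^ a - ph z' ^ a) +
        ((min ‖z‖ c - min ‖z'‖ c : ℝ) : ℂ) * (w * ph z' ^ a) := by
      push_cast; ring
    rw [e]
    refine (norm_add_le _ _).trans ?_
    have hm : 0 ≤ min ‖z‖ c := le_min (norm_nonneg _) hc
    have h1 : ‖((min ‖z‖ c : ℝ) : ℂ) * w * (ph z ^ a - ph z' ^ a)‖ ≤ a * ‖z - z'‖ := by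
      rw [norm_mul, norm_mul, Complex.norm_real, Real.norm_of_nonneg hm]
      calc min ‖z‖ c * ‖w‖ * ‖ph z ^ a - ph z' ^ a‖
          ≤ ‖z‖ * 1 * (a * ‖ph z - ph z'‖) := by
            gcongr
            · exact min_le_left _ _
            · exact norm_pow_sub_le (norm_ph_le _) (norm_ph_le _) a
        _ = a * (‖z‖ * ‖ph z - ph z'‖) := by ring
        _ ≤ a * ‖z - z'‖ := mul_le_mul_of_nonneg_left (ph_lip_aux h) (Nat.cast_nonneg _)
    have h2 : ‖((min ‖z‖ c - min ‖z'‖ c : ℝ) : ℂ) * (w * ph z' ^ a)‖ ≤ ‖z - z'‖ := by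
      rw [norm_mul, norm_mul, Complex.norm_real, norm_pow]
      have h3 : ‖w‖ * ‖ph z'‖ ^ a ≤ 1 :=
        mul_le_one₀ hw (by positivity) (pow_le_one₀ (norm_nonneg _) (norm_ph_le _))
      have h4 : ‖min ‖z‖ c - min ‖z'‖ c‖ ≤ ‖z - z'‖ := by
        rw [Real.norm_eq_abs]
        refine (abs_min_sub_min_le_max _ _ _ _).trans ?_
        rw [sub_self, abs_zero]
        exact max_le (abs_norm_sub_norm_le z z') (norm_nonneg _)
      calc _ ≤ ‖z - z'‖ * 1 := mul_le_mul h4 h3 (by positivity) (norm_nonneg _)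
        _ = _ := mul_one _
    linarith
  rcases le_total ‖z‖ ‖z'‖ with h | h
  · exact key z z' h
  · rw [norm_sub_rev, norm_sub_rev z z']
    exact key z' z h

/-! ### Basic properties of `lk` -/

theorem lk_zero_right {lam : ℝ} (hl : 0 ≤ lam) (a : ℕ) (y : ℂ) : lk lam a y 0 = 0 := by
  have : min ‖(0 : ℂ)‖ (lam * ‖y‖) = 0 := by
    rw [norm_zero]; exact min_eq_left (by positivity)
  rw [lk, this]; simp

theorem lk_zero_left (lam : ℝ) (a : ℕ) (z : ℂ) : lk lam a 0 z = 0 := by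
  simp [lk, ph_zero]

theorem norm_lk_le {lam : ℝ} (hl : 0 ≤ lam) (a : ℕ) (y z : ℂ) :
    ‖lk lam a y z‖ ≤ min ‖z‖ (lam * ‖y‖) := by
  have hm : 0 ≤ min ‖z‖ (lam * ‖y‖) := le_min (norm_nonneg _) (by positivity)
  rw [lk, norm_mul, Complex.norm_real, Real.norm_of_nonneg hm, norm_mul, norm_pow]
  calc _ ≤ min ‖z‖ (lam * ‖y‖) * 1 := mul_le_mul_of_nonneg_left
        (mul_le_one₀ (norm_ph_le _) (by positivity) (pow_le_one₀ (norm_nonneg _) (norm_ph_le _))) hm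
    _ = _ := mul_one _

theorem norm_lk {lam : ℝ} (hl : 0 ≤ lam) (a : ℕ) {y z : ℂ} (hy : y ≠ 0) (hz : z ≠ 0) :
    ‖lk lam a y z‖ = min ‖z‖ (lam * ‖y‖) := by
  have hm : 0 ≤ min ‖z‖ (lam * ‖y‖) := le_min (norm_nonneg _) (by positivity)
  rw [lk, norm_mul, Complex.norm_real, Real.norm_of_nonneg hm, norm_mul, norm_pow, norm_ph hy,
    norm_ph hz]
  simp

theorem lk_smul {lam : ℝ} (hl : 0 ≤ lam) (a : ℕ) {r : ℝ} (hr : 0 ≤ r) (y z : ℂ) :
    lk lam a (r • y) (r • z) = r • lk lam a y z := by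
  rcases hr.eq_or_lt with rfl | hr
  · rw [zero_smul, zero_smul, zero_smul, lk_zero_right hl]
  · rw [lk, lk, ph_smul hr, ph_smul hr, norm_smul, norm_smul, Real.norm_eq_abs, abs_of_pos hr]
    have : min (r * ‖z‖) (lam * (r * ‖y‖)) = r * min ‖z‖ (lam * ‖y‖) := by
      rw [mul_min_of_nonneg _ _ hr.le]
      congr 1
      ring
    rw [this, Complex.real_smul]
    push_cast
    ring

/-- Inner region. -/
theorem lk_of_le {lam : ℝ} {a : ℕ} {y z : ℂ} (h : ‖z‖ ≤ lam * ‖y‖) :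
    lk lam a y z = ((‖z‖ : ℝ) : ℂ) * (ph y * ph z ^ a) := by
  rw [lk, min_eq_left h]

/-- Core region. -/
theorem lk_of_ge {lam : ℝ} {a : ℕ} {y z : ℂ} (h : lam * ‖y‖ ≤ ‖z‖) :
    lk lam a y z = (lam : ℂ) * (y * ph z ^ a) := by
  rw [lk, min_eq_right h]
  push_cast
  rw [← mul_assoc, mul_assoc (lam : ℂ), norm_mul_ph]
  ring

theorem continuousOn_lk (a : ℕ) :
    ContinuousOn (fun p : ℝ × (ℂ × ℂ) => lk p.1 a p.2.1 p.2.2) (Ici 0 ×ˢ univ) := by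
  rintro ⟨l, y, z⟩ ⟨hl, -⟩
  have hl0 : 0 ≤ l := hl
  by_cases hyz : y ≠ 0 ∧ z ≠ 0
  · refine ContinuousAt.continuousWithinAt ?_
    have h1 : ContinuousAt (fun p : ℝ × (ℂ × ℂ) => ph p.2.1) (l, y, z) :=
      ContinuousAt.comp (f := fun p : ℝ × (ℂ × ℂ) => p.2.1) (g := ph)
        (continuousAt_ph hyz.1) (by fun_prop)
    have h2 : ContinuousAt (fun p : ℝ × (ℂ × ℂ) => ph p.2.2) (l, y, z) :=
      ContinuousAt.comp (f := fun p : ℝ × (ℂ × ℂ) => p.2.2) (g := ph)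
        (continuousAt_ph hyz.2) (by fun_prop)
    have h3 : Continuous (fun p : ℝ × (ℂ × ℂ) => ((min ‖p.2.2‖ (p.1 * ‖p.2.1‖) : ℝ) : ℂ)) := by
      refine Complex.continuous_ofReal.comp ?_
      fun_prop
    exact h3.continuousAt.mul (h1.mul (h2.pow a))
  · have h0 : lk l a y z = 0 := by
      by_cases hy : y = 0
      · rw [hy, lk_zero_left]
      · have hz : z = 0 := by
          by_contra hz
          exact hyz ⟨hy, hz⟩
        rw [hz, lk_zero_right hl0]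
    have hm : min ‖z‖ (l * ‖y‖) = 0 := by
      by_cases hy : y = 0
      · rw [hy, norm_zero, mul_zero]; exact min_eq_right (norm_nonneg _)
      · have hz : z = 0 := by
          by_contra hz
          exact hyz ⟨hy, hz⟩
        rw [hz, norm_zero]; exact min_eq_left (by positivity)
    show Tendsto _ _ (𝓝 (lk l a y z))
    rw [h0, tendsto_zero_iff_norm_tendsto_zero]
    have h3 : Continuous (fun p : ℝ × (ℂ × ℂ) => min ‖p.2.2‖ (p.1 * ‖p.2.1‖)) := by fun_prop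
    have h4 : Tendsto (fun p : ℝ × (ℂ × ℂ) => min ‖p.2.2‖ (p.1 * ‖p.2.1‖))
        (𝓝[Ici 0 ×ˢ univ] (l, y, z)) (𝓝 0) := by
      have := h3.tendsto (l, y, z)
      rw [hm] at this
      exact this.mono_left nhdsWithin_le_nhds
    refine squeeze_zero' (Eventually.of_forall fun _ => norm_nonneg _) ?_ h4
    filter_upwards [self_mem_nhdsWithin] with p hp
    exact norm_lk_le hp.1 a _ _

/-! ### Regularity -/

/-- Strict differentiability of the inner formula. -/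
theorem strict_inner (a : ℕ) {y₀ z₀ : ℂ} (hy : y₀ ≠ 0) (hz : z₀ ≠ 0) (t₀ : ℝ) :
    ContDiffAt ℝ 1 (fun p : ℝ × (ℂ × ℂ) => ((‖p.2.2‖ : ℝ) : ℂ) * (ph p.2.1 * ph p.2.2 ^ a))
      (t₀, (y₀, z₀)) := by
  have h1 : ContDiffAt ℝ 1 (fun p : ℝ × (ℂ × ℂ) => ph p.2.1) (t₀, (y₀, z₀)) :=
    ContDiffAt.comp (g := ph) (f := fun p : ℝ × (ℂ × ℂ) => p.2.1) _ (contDiffAt_ph hy)
      (by fun_prop)
  have h2 : ContDiffAt ℝ 1 (fun p : ℝ × (ℂ × ℂ) => ph p.2.2) (t₀, (y₀, z₀)) :=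
    ContDiffAt.comp (g := ph) (f := fun p : ℝ × (ℂ × ℂ) => p.2.2) _ (contDiffAt_ph hz)
      (by fun_prop)
  have h3 : ContDiffAt ℝ 1 (fun p : ℝ × (ℂ × ℂ) => ((‖p.2.2‖ : ℝ) : ℂ)) (t₀, (y₀, z₀)) := by
    have h4 : ContDiffAt ℝ 1 (fun p : ℝ × (ℂ × ℂ) => ‖p.2.2‖) (t₀, (y₀, z₀)) :=
      ContDiffAt.norm ℝ (by fun_prop) hz
    exact Complex.ofRealCLM.contDiff.contDiffAt.comp _ h4
  exact h3.mul (h1.mul (h2.pow a))

/-- Strict differentiability of the core formula. -/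
theorem strict_core (a : ℕ) (y₀ : ℂ) {z₀ : ℂ} (hz : z₀ ≠ 0) (t₀ : ℝ) :
    ContDiffAt ℝ 1 (fun p : ℝ × (ℂ × ℂ) => (p.1 : ℂ) * (p.2.1 * ph p.2.2 ^ a))
      (t₀, (y₀, z₀)) := by
  have h2 : ContDiffAt ℝ 1 (fun p : ℝ × (ℂ × ℂ) => ph p.2.2) (t₀, (y₀, z₀)) :=
    ContDiffAt.comp (g := ph) (f := fun p : ℝ × (ℂ × ℂ) => p.2.2) _ (contDiffAt_ph hz)
      (by fun_prop)
  have h1 : ContDiffAt ℝ 1 (fun p : ℝ × (ℂ × ℂ) => (p.1 : ℂ)) (t₀, (y₀, z₀)) :=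
    (Complex.ofRealCLM.contDiff.comp contDiff_fst).contDiffAt
  have h3 : ContDiffAt ℝ 1 (fun p : ℝ × (ℂ × ℂ) => p.2.1) (t₀, (y₀, z₀)) := by fun_prop
  exact h1.mul (h3.mul (h2.pow a))

/-- The curve `τ ↦ (y e^{ατ}, z e^{ζτ})`. -/
theorem hasDerivAt_expCurve (t₀ : ℝ) (y₀ z₀ α ζ : ℂ) :
    HasDerivAt (fun τ : ℝ => (t₀, (y₀ * Complex.exp (α * τ), z₀ * Complex.exp (ζ * τ))))
      ((0 : ℝ), (α * y₀, ζ * z₀)) 0 := by
  have h1 : ∀ w β : ℂ, HasDerivAt (fun τ : ℝ => w * Complex.exp (β * τ)) (β * w) 0 := by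
    intro w β
    have h2 : HasDerivAt (fun τ : ℝ => β * (τ : ℂ)) (β * 1) 0 :=
      (Complex.ofRealCLM.hasDerivAt (x := (0 : ℝ))).const_mul β
    have h3 := (h2.cexp).const_mul w
    simpa [mul_comm] using h3
  exact (hasDerivAt_const (0 : ℝ) t₀).prodMk ((h1 y₀ α).prodMk (h1 z₀ ζ))

theorem ph_mul (z w : ℂ) : ph (z * w) = ph z * ph w := by
  rw [ph, ph, ph, norm_mul]
  push_cast
  rw [mul_div_mul_comm]

theorem ph_exp (w : ℂ) : ph (Complex.exp w) = Complex.exp ((w.im : ℂ) * Complex.I) := by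
  rw [ph, Complex.norm_exp]
  have h1 : Complex.exp w = Complex.exp (w.re : ℂ) * Complex.exp ((w.im : ℂ) * Complex.I) := by
    rw [← Complex.exp_add, Complex.re_add_im]
  rw [h1, Complex.ofReal_exp, mul_div_cancel_left₀ _ (Complex.exp_ne_zero _)]

/-- The directional derivative of a function which is multiplied by `e^{μτ}` along the
exponential curve. -/
theorem deriv_along {G : ℝ × (ℂ × ℂ) → ℂ} {t₀ : ℝ} {y₀ z₀ α ζ μ : ℂ}
    {G' : ℝ × (ℂ × ℂ) →L[ℝ] ℂ} (hG : HasStrictFDerivAt G G' (t₀, (y₀, z₀)))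
    (h : ∀ τ : ℝ, G (t₀, (y₀ * Complex.exp (α * τ), z₀ * Complex.exp (ζ * τ))) =
      G (t₀, (y₀, z₀)) * Complex.exp (μ * τ)) :
    G' (0, (α * y₀, ζ * z₀)) = μ * G (t₀, (y₀, z₀)) := by
  have h0 : (t₀, (y₀ * Complex.exp (α * ((0 : ℝ) : ℂ)), z₀ * Complex.exp (ζ * ((0 : ℝ) : ℂ)))) =
      (t₀, (y₀, z₀)) := by simp
  have h1 : HasDerivAt (fun τ : ℝ => G (t₀, (y₀ * Complex.exp (α * τ), z₀ * Complex.exp (ζ * τ))))
      (G' (0, (α * y₀, ζ * z₀))) 0 := by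
    have h2 : HasFDerivAt G G'
        (t₀, (y₀ * Complex.exp (α * ((0 : ℝ) : ℂ)), z₀ * Complex.exp (ζ * ((0 : ℝ) : ℂ)))) := by
      rw [h0]; exact hG.hasFDerivAt
    exact h2.comp_hasDerivAt (0 : ℝ) (hasDerivAt_expCurve t₀ y₀ z₀ α ζ)
  have h3 : HasDerivAt (fun τ : ℝ => G (t₀, (y₀, z₀)) * Complex.exp (μ * τ))
      (μ * G (t₀, (y₀, z₀))) 0 := by
    have h2 : HasDerivAt (fun τ : ℝ => μ * (τ : ℂ)) (μ * 1) 0 :=
      (Complex.ofRealCLM.hasDerivAt (x := (0 : ℝ))).const_mul μ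
    have h4 := (h2.cexp).const_mul (G (t₀, (y₀, z₀)))
    simpa [mul_comm] using h4
  exact h1.unique (h3.congr_of_eventuallyEq (Eventually.of_forall h))

theorem MRegOn.congr_on {E Z : Type*} [NormedAddCommGroup E] [NormedSpace ℝ E]
    [NormedAddCommGroup Z] [NormedSpace ℝ Z] {k : ℝ} {F G : E → Z} {A : Z →L[ℝ] E} {U : Set E}
    (h : MRegOn k F A U) (hFG : ∀ x ∈ U, F x = G x) : MRegOn k G A U := by
  intro x hx c hc
  rw [← hFG x hx, ← hFG _ hc]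
  exact h x hx c hc

/-- The direction `c ↦ Re (c / v) p + Im (c / v) q`. -/
noncomputable def dirL {E : Type*} [NormedAddCommGroup E] [NormedSpace ℝ E] (v : ℂ) (p q : E) :
    ℂ →L[ℝ] E :=
  (Complex.reCLM.comp (ContinuousLinearMap.mul ℝ ℂ v⁻¹)).smulRight p +
    (Complex.imCLM.comp (ContinuousLinearMap.mul ℝ ℂ v⁻¹)).smulRight q

theorem dirL_apply {E : Type*} [NormedAddCommGroup E] [NormedSpace ℝ E] (v : ℂ) (p q : E) (c : ℂ) :
    dirL v p q c = (v⁻¹ * c).re • p + (v⁻¹ * c).im • q := rfl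

theorem apply_dirL {E : Type*} [NormedAddCommGroup E] [NormedSpace ℝ E] {v : ℂ} (hv : v ≠ 0)
    {p q : E} {F' : E →L[ℝ] ℂ} (hp : F' p = v) (hq : F' q = Complex.I * v) (c : ℂ) :
    F' (dirL v p q c) = c := by
  rw [dirL_apply, map_add, map_smul, map_smul, hp, hq, Complex.real_smul, Complex.real_smul]
  have h1 : ((v⁻¹ * c).re : ℂ) * v + ((v⁻¹ * c).im : ℂ) * (Complex.I * v) =
      (((v⁻¹ * c).re : ℂ) + ((v⁻¹ * c).im : ℂ) * Complex.I) * v := by ring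
  rw [h1, Complex.re_add_im, mul_comm v⁻¹ c, mul_assoc, inv_mul_cancel₀ hv, mul_one]

theorem norm_exp_ofReal_mul (w : ℂ) (τ : ℝ) :
    ‖Complex.exp (w * τ)‖ = Real.exp (w.re * τ) := by
  rw [Complex.norm_exp]
  simp

/-- The inner formula along exponential curves. -/
theorem inner_curve (a : ℕ) (y₀ z₀ α ζ : ℂ) (τ : ℝ) :
    ((‖z₀ * Complex.exp (ζ * τ)‖ : ℝ) : ℂ) * (ph (y₀ * Complex.exp (α * τ)) *
      ph (z₀ * Complex.exp (ζ * τ)) ^ a) =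
    ((‖z₀‖ : ℝ) : ℂ) * (ph y₀ * ph z₀ ^ a) *
      Complex.exp (((ζ.re : ℂ) + (α.im : ℂ) * Complex.I + a * ((ζ.im : ℂ) * Complex.I)) * τ) := by
  rw [norm_mul, norm_exp_ofReal_mul, ph_mul, ph_mul, ph_exp, ph_exp, mul_pow, ← Complex.exp_nat_mul]
  have h1 : (α * (τ : ℂ)).im = α.im * τ := by simp
  have h2 : (ζ * (τ : ℂ)).im = ζ.im * τ := by simp
  rw [h1, h2]
  push_cast
  have h3 : ((ζ.re : ℂ) + (α.im : ℂ) * Complex.I + a * ((ζ.im : ℂ) * Complex.I)) * τ =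
      (ζ.re : ℂ) * τ + ((α.im : ℂ) * τ * Complex.I + a * ((ζ.im : ℂ) * τ * Complex.I)) := by ring
  rw [h3, Complex.exp_add, Complex.exp_add]
  ring

/-- The core formula along exponential curves. -/
theorem core_curve (a : ℕ) (t : ℝ) (y₀ z₀ α ζ : ℂ) (τ : ℝ) :
    (t : ℂ) * (y₀ * Complex.exp (α * τ) * ph (z₀ * Complex.exp (ζ * τ)) ^ a) =
    (t : ℂ) * (y₀ * ph z₀ ^ a) * Complex.exp ((α + a * ((ζ.im : ℂ) * Complex.I)) * τ) := by
  rw [ph_mul, ph_exp, mul_pow, ← Complex.exp_nat_mul]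
  have h2 : (ζ * (τ : ℂ)).im = ζ.im * τ := by simp
  rw [h2]
  push_cast
  have h3 : (α + a * ((ζ.im : ℂ) * Complex.I)) * τ =
      α * τ + a * ((ζ.im : ℂ) * τ * Complex.I) := by ring
  rw [h3, Complex.exp_add]
  ring

section Reg

variable {a : ℕ} {y₀ z₀ : ℂ} {t₀ : ℝ}

/-- Derivative of the inner formula in the scaling and rotation directions. -/
theorem inner_dirs (ha : a ≠ 0) {G' : ℝ × (ℂ × ℂ) →L[ℝ] ℂ}
    (hG : HasStrictFDerivAt (fun p : ℝ × (ℂ × ℂ) => ((‖p.2.2‖ : ℝ) : ℂ) *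
      (ph p.2.1 * ph p.2.2 ^ a)) G' (t₀, (y₀, z₀))) :
    G' (0, (0, z₀)) = ((‖z₀‖ : ℝ) : ℂ) * (ph y₀ * ph z₀ ^ a) ∧
    G' (0, (y₀, z₀)) = ((‖z₀‖ : ℝ) : ℂ) * (ph y₀ * ph z₀ ^ a) ∧
    G' (0, (0, (Complex.I / a) * z₀)) =
      Complex.I * (((‖z₀‖ : ℝ) : ℂ) * (ph y₀ * ph z₀ ^ a)) := by
  have ha' : (a : ℂ) ≠ 0 := by exact_mod_cast ha
  have hI : (Complex.I / (a : ℂ)) = (((1 / (a : ℝ) : ℝ)) : ℂ) * Complex.I := by
    push_cast; ring
  refine ⟨?_, ?_, ?_⟩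
  · have := deriv_along (α := 0) (ζ := 1) (μ := 1) hG (fun τ => by
      have := inner_curve a y₀ z₀ 0 1 τ
      simpa using this)
    simpa using this
  · have := deriv_along (α := 1) (ζ := 1) (μ := 1) hG (fun τ => by
      have := inner_curve a y₀ z₀ 1 1 τ
      simpa using this)
    simpa using this
  · have := deriv_along (α := 0) (ζ := Complex.I / a) (μ := Complex.I) hG (fun τ => by
      have h := inner_curve a y₀ z₀ 0 (Complex.I / a) τ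
      have h1 : (Complex.I / (a : ℂ)).re = 0 := by rw [hI]; simp
      have h2 : (Complex.I / (a : ℂ)).im = 1 / a := by rw [hI]; simp
      rw [h1, h2] at h
      have h3 : (((0 : ℝ) : ℂ) + ((0 : ℂ).im : ℂ) * Complex.I +
          a * (((1 / (a : ℝ) : ℝ) : ℂ) * Complex.I)) = Complex.I := by
        push_cast
        simp only [Complex.zero_im, Complex.ofReal_zero]
        field_simp
        ring
      rw [h3] at h
      exact h)
    simpa using this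

/-- Derivative of the core formula in the scaling and rotation directions. -/
theorem core_dirs (ha : a ≠ 0) {G' : ℝ × (ℂ × ℂ) →L[ℝ] ℂ}
    (hG : HasStrictFDerivAt (fun p : ℝ × (ℂ × ℂ) => (p.1 : ℂ) * (p.2.1 * ph p.2.2 ^ a)) G'
      (t₀, (y₀, z₀))) :
    G' (0, (y₀, z₀)) = (t₀ : ℂ) * (y₀ * ph z₀ ^ a) ∧
    G' (0, (0, (Complex.I / a) * z₀)) = Complex.I * ((t₀ : ℂ) * (y₀ * ph z₀ ^ a)) := by
  have ha' : (a : ℂ) ≠ 0 := by exact_mod_cast ha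
  have hI : (Complex.I / (a : ℂ)) = (((1 / (a : ℝ) : ℝ)) : ℂ) * Complex.I := by
    push_cast; ring
  refine ⟨?_, ?_⟩
  · have := deriv_along (α := 1) (ζ := 1) (μ := 1) hG (fun τ => by
      have := core_curve a t₀ y₀ z₀ 1 1 τ
      simpa using this)
    simpa using this
  · have := deriv_along (α := 0) (ζ := Complex.I / a) (μ := Complex.I) hG (fun τ => by
      have h := core_curve a t₀ y₀ z₀ 0 (Complex.I / a) τ
      have h2 : (Complex.I / (a : ℂ)).im = 1 / a := by rw [hI]; simp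
      rw [h2] at h
      have h3 : ((0 : ℂ) + a * (((1 / (a : ℝ) : ℝ) : ℂ) * Complex.I)) = Complex.I := by
        push_cast
        field_simp
        ring
      rw [h3] at h
      exact h)
    simpa using this

/-- Derivative of the core formula in the direction of `y`. -/
theorem core_y {G' : ℝ × (ℂ × ℂ) →L[ℝ] ℂ}
    (hG : HasStrictFDerivAt (fun p : ℝ × (ℂ × ℂ) => (p.1 : ℂ) * (p.2.1 * ph p.2.2 ^ a)) G'
      (t₀, (y₀, z₀))) (v : ℂ) :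
    G' (0, (v, 0)) = (t₀ : ℂ) * (v * ph z₀ ^ a) := by
  have h1 : HasDerivAt (fun τ : ℝ => (t₀, (y₀ + (τ : ℂ) * v, z₀))) ((0 : ℝ), (v, (0 : ℂ))) 0 := by
    refine (hasDerivAt_const (0 : ℝ) t₀).prodMk (HasDerivAt.prodMk ?_ (hasDerivAt_const _ _))
    simpa using ((Complex.ofRealCLM.hasDerivAt (x := (0 : ℝ))).mul_const v).const_add y₀
  have h2 : HasFDerivAt (fun p : ℝ × (ℂ × ℂ) => (p.1 : ℂ) * (p.2.1 * ph p.2.2 ^ a)) G'
      (t₀, (y₀ + ((0 : ℝ) : ℂ) * v, z₀)) := by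
    simpa using hG.hasFDerivAt
  have h3 := h2.comp_hasDerivAt (0 : ℝ) h1
  have h4 : HasDerivAt (fun τ : ℝ => (t₀ : ℂ) * ((y₀ + (τ : ℂ) * v) * ph z₀ ^ a))
      ((t₀ : ℂ) * (v * ph z₀ ^ a)) 0 := by
    have h5 : HasDerivAt (fun τ : ℝ => y₀ + (τ : ℂ) * v) (1 * v) 0 :=
      ((Complex.ofRealCLM.hasDerivAt (x := (0 : ℝ))).mul_const v).const_add y₀
    rw [one_mul] at h5
    exact (h5.mul_const _).const_mul _
  exact h3.unique h4

theorem lk_linkReg {lam₀ L : ℝ} (ha : a ≠ 0) (hL0 : 0 ≤ L) (hL : L < lam₀) (ht : t₀ ∈ Ici lam₀)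
    (y₀ : ℂ) (hz : z₀ ≠ 0) :
    LinkReg (Ici lam₀) L (fun lam => lk lam a) t₀ y₀ z₀ := by
  have hlam : 0 < lam₀ := hL0.trans_lt hL
  have ht0 : 0 < t₀ := hlam.trans_le ht
  have hk0 : 0 < (1 - L / lam₀) / 2 := by
    have : L / lam₀ < 1 := (div_lt_one hlam).mpr hL
    linarith
  have hk1 : (1 - L / lam₀) / 2 + L / lam₀ < 1 := by linarith
  have hone : (1 : WithTop ℕ∞) ≠ 0 := one_ne_zero
  rcases lt_trichotomy ‖z₀‖ (t₀ * ‖y₀‖) with hlt | heq | hgt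
  · -- inner region
    have hy : y₀ ≠ 0 := by
      rintro rfl
      rw [norm_zero, mul_zero] at hlt
      exact absurd hlt (not_lt.mpr (norm_nonneg _))
    set v : ℂ := ((‖z₀‖ : ℝ) : ℂ) * (ph y₀ * ph z₀ ^ a) with hv
    have hv0 : v ≠ 0 := mul_ne_zero (by exact_mod_cast norm_ne_zero_iff.mpr hz)
      (mul_ne_zero (ph_ne hy) (pow_ne_zero _ (ph_ne hz)))
    have hG := (strict_inner a hy hz t₀).hasStrictFDerivAt hone
    obtain ⟨d1, -, d3⟩ := inner_dirs ha hG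
    set G' := fderiv ℝ (fun p : ℝ × (ℂ × ℂ) => ((‖p.2.2‖ : ℝ) : ℂ) *
      (ph p.2.1 * ph p.2.2 ^ a)) (t₀, (y₀, z₀))
    obtain ⟨U, hU, hev⟩ := exists_mregOn_of_strict (s := Ici lam₀)
      (F := fun (_ : ℝ) (q : ℂ × ℂ) => ((‖q.2‖ : ℝ) : ℂ) * (ph q.1 * ph q.2 ^ a))
      (G'.comp (ContinuousLinearMap.inr ℝ ℝ (ℂ × ℂ)))
      (dirL v ((0 : ℂ), z₀) ((0 : ℂ), (Complex.I / a) * z₀))
      (apply_dirL hv0 (by simpa using d1) (by simpa using d3))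
      (fun ε hε => strict_of_joint (s := Ici lam₀)
        (F := fun (_ : ℝ) (q : ℂ × ℂ) => ((‖q.2‖ : ℝ) : ℂ) * (ph q.1 * ph q.2 ^ a)) hG hε) hk0
    have hopen : {p : ℝ × (ℂ × ℂ) | ‖p.2.2‖ < p.1 * ‖p.2.1‖} ∈ 𝓝 (t₀, (y₀, z₀)) :=
      (isOpen_lt (by fun_prop) (by fun_prop)).mem_nhds hlt
    obtain ⟨W, hW, V, hV, hWV⟩ := mem_nhds_prod_iff.mp hopen
    refine ⟨(1 - L / lam₀) / 2, hk0.le, dirL v ((0 : ℂ), z₀) ((0 : ℂ), (Complex.I / a) * z₀), ?_,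
      U ∩ V, inter_mem hU hV, ?_⟩
    · have : (ContinuousLinearMap.fst ℝ ℂ ℂ).comp
          (dirL v ((0 : ℂ), z₀) ((0 : ℂ), (Complex.I / a) * z₀)) = 0 := by
        ext c
        all_goals simp [dirL_apply]
      rw [this, norm_zero, mul_zero, add_zero]
      have : 0 ≤ L / lam₀ := by positivity
      linarith
    · filter_upwards [hev, mem_nhdsWithin_of_mem_nhds hW] with l h1 h2
      refine MRegOn.congr_on (h1.mono inter_subset_left) fun q hq => ?_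
      have h3 : ‖q.2‖ < l * ‖q.1‖ := hWV (mk_mem_prod h2 hq.2)
      exact (lk_of_le h3.le).symm
  · -- the kink
    have hy : y₀ ≠ 0 := by
      rintro rfl
      rw [norm_zero, mul_zero] at heq
      exact hz (norm_eq_zero.mp heq)
    set v : ℂ := ((‖z₀‖ : ℝ) : ℂ) * (ph y₀ * ph z₀ ^ a) with hv
    have hv0 : v ≠ 0 := mul_ne_zero (by exact_mod_cast norm_ne_zero_iff.mpr hz)
      (mul_ne_zero (ph_ne hy) (pow_ne_zero _ (ph_ne hz)))
    have hv2 : (t₀ : ℂ) * (y₀ * ph z₀ ^ a) = v := by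
      rw [hv, heq]
      push_cast
      rw [mul_assoc (t₀ : ℂ), ← mul_assoc ((‖y₀‖ : ℝ) : ℂ), norm_mul_ph]
    have hG := (strict_inner a hy hz t₀).hasStrictFDerivAt hone
    have hH := (strict_core a y₀ hz t₀).hasStrictFDerivAt hone
    obtain ⟨-, d2, d3⟩ := inner_dirs ha hG
    obtain ⟨e2, e3⟩ := core_dirs ha hH
    rw [hv2] at e2 e3
    set G' := fderiv ℝ (fun p : ℝ × (ℂ × ℂ) => ((‖p.2.2‖ : ℝ) : ℂ) *
      (ph p.2.1 * ph p.2.2 ^ a)) (t₀, (y₀, z₀))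
    set H' := fderiv ℝ (fun p : ℝ × (ℂ × ℂ) => (p.1 : ℂ) * (p.2.1 * ph p.2.2 ^ a))
      (t₀, (y₀, z₀))
    obtain ⟨U, hU, hev⟩ := exists_mregOn_of_strict (s := Ici lam₀)
      (F := fun (_ : ℝ) (q : ℂ × ℂ) => ((‖q.2‖ : ℝ) : ℂ) * (ph q.1 * ph q.2 ^ a))
      (G'.comp (ContinuousLinearMap.inr ℝ ℝ (ℂ × ℂ)))
      (dirL v (y₀, z₀) ((0 : ℂ), (Complex.I / a) * z₀))
      (apply_dirL hv0 (by simpa using d2) (by simpa using d3))
      (fun ε hε => strict_of_joint (s := Ici lam₀)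
        (F := fun (_ : ℝ) (q : ℂ × ℂ) => ((‖q.2‖ : ℝ) : ℂ) * (ph q.1 * ph q.2 ^ a)) hG hε) hk0
    obtain ⟨U', hU', hev'⟩ := exists_mregOn_of_strict (s := Ici lam₀)
      (F := fun (l : ℝ) (q : ℂ × ℂ) => (l : ℂ) * (q.1 * ph q.2 ^ a))
      (H'.comp (ContinuousLinearMap.inr ℝ ℝ (ℂ × ℂ)))
      (dirL v (y₀, z₀) ((0 : ℂ), (Complex.I / a) * z₀))
      (apply_dirL hv0 (by simpa using e2) (by simpa using e3))
      (fun ε hε => strict_of_joint (s := Ici lam₀)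
        (F := fun (l : ℝ) (q : ℂ × ℂ) => (l : ℂ) * (q.1 * ph q.2 ^ a)) hH hε) hk0
    obtain ⟨R, hR, hball⟩ := Metric.mem_nhds_iff.mp (inter_mem hU hU')
    refine ⟨(1 - L / lam₀) / 2, hk0.le, dirL v (y₀, z₀) ((0 : ℂ), (Complex.I / a) * z₀), ?_,
      Metric.ball (y₀, z₀) R, Metric.ball_mem_nhds _ hR, ?_⟩
    · have hn : ‖(ContinuousLinearMap.fst ℝ ℂ ℂ).comp
          (dirL v (y₀, z₀) ((0 : ℂ), (Complex.I / a) * z₀))‖ ≤ 1 / lam₀ := by
        refine ContinuousLinearMap.opNorm_le_bound _ (by positivity) fun c => ?_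
        have e : ((ContinuousLinearMap.fst ℝ ℂ ℂ).comp
            (dirL v (y₀, z₀) ((0 : ℂ), (Complex.I / a) * z₀))) c = (v⁻¹ * c).re • y₀ := by
          simp [dirL_apply]
        rw [e, norm_smul, Real.norm_eq_abs]
        have h1 : |(v⁻¹ * c).re| ≤ ‖v‖⁻¹ * ‖c‖ := by
          refine (Complex.abs_re_le_norm _).trans ?_
          rw [norm_mul, norm_inv]
        have h2 : ‖v‖ = t₀ * ‖y₀‖ := by
          rw [← heq, hv, norm_mul, norm_mul, norm_pow, norm_ph hy, norm_ph hz]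
          simp
        have hy0 : 0 < ‖y₀‖ := norm_pos_iff.mpr hy
        calc |(v⁻¹ * c).re| * ‖y₀‖ ≤ ‖v‖⁻¹ * ‖c‖ * ‖y₀‖ :=
              mul_le_mul_of_nonneg_right h1 (norm_nonneg _)
          _ = 1 / t₀ * ‖c‖ := by rw [h2]; field_simp
          _ ≤ 1 / lam₀ * ‖c‖ := mul_le_mul_of_nonneg_right
              (one_div_le_one_div_of_le hlam ht) (norm_nonneg _)
      calc _ ≤ (1 - L / lam₀) / 2 + L * (1 / lam₀) := by gcongr
        _ = (1 - L / lam₀) / 2 + L / lam₀ := by ring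
        _ < 1 := hk1
    · filter_upwards [hev, hev', self_mem_nhdsWithin] with l h1 h2 h3
      have hl0 : 0 ≤ l := hlam.le.trans h3
      refine MRegOn.select (convex_ball _ _) ?_ (fun q _ => ?_)
        (h1.mono (hball.trans inter_subset_left)) (h2.mono (hball.trans inter_subset_right))
      · have hc := (continuousOn_lk a).comp (f := fun q : ℂ × ℂ => (l, q)) (s := univ)
          (by fun_prop) (fun q _ => ⟨hl0, mem_univ _⟩)
        exact hc.mono (subset_univ _)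
      · rcases le_total ‖q.2‖ (l * ‖q.1‖) with h | h
        · exact Or.inl (lk_of_le h)
        · exact Or.inr (lk_of_ge h)
  · -- core region
    have hH := (strict_core a y₀ hz t₀).hasStrictFDerivAt hone
    have hy' := core_y hH
    set H' := fderiv ℝ (fun p : ℝ × (ℂ × ℂ) => (p.1 : ℂ) * (p.2.1 * ph p.2.2 ^ a))
      (t₀, (y₀, z₀))
    set u : ℂ := (t₀ : ℂ) * ph z₀ ^ a with hu
    have hu0 : u ≠ 0 := mul_ne_zero (by exact_mod_cast ht0.ne') (pow_ne_zero _ (ph_ne hz))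
    set A : ℂ →L[ℝ] ℂ × ℂ :=
      (ContinuousLinearMap.inl ℝ ℂ ℂ).comp (ContinuousLinearMap.mul ℝ ℂ u⁻¹) with hA
    have hAc : ∀ c, A c = (u⁻¹ * c, 0) := fun c => rfl
    obtain ⟨U, hU, hev⟩ := exists_mregOn_of_strict (s := Ici lam₀)
      (F := fun (l : ℝ) (q : ℂ × ℂ) => (l : ℂ) * (q.1 * ph q.2 ^ a))
      (H'.comp (ContinuousLinearMap.inr ℝ ℝ (ℂ × ℂ))) A
      (fun c => by
        have h1 : (H'.comp (ContinuousLinearMap.inr ℝ ℝ (ℂ × ℂ))) (A c) = H' (0, (u⁻¹ * c, 0)) :=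
          rfl
        rw [h1, hy', ← mul_assoc]
        have h2 : (t₀ : ℂ) * (u⁻¹ * c) * ph z₀ ^ a = (u * u⁻¹) * c := by rw [hu]; ring
        rw [h2, mul_inv_cancel₀ hu0, one_mul])
      (fun ε hε => strict_of_joint (s := Ici lam₀)
        (F := fun (l : ℝ) (q : ℂ × ℂ) => (l : ℂ) * (q.1 * ph q.2 ^ a)) hH hε) hk0
    have hopen : {p : ℝ × (ℂ × ℂ) | p.1 * ‖p.2.1‖ < ‖p.2.2‖} ∈ 𝓝 (t₀, (y₀, z₀)) :=
      (isOpen_lt (by fun_prop) (by fun_prop)).mem_nhds hgt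
    obtain ⟨W, hW, V, hV, hWV⟩ := mem_nhds_prod_iff.mp hopen
    refine ⟨(1 - L / lam₀) / 2, hk0.le, A, ?_, U ∩ V, inter_mem hU hV, ?_⟩
    · have hn : ‖(ContinuousLinearMap.fst ℝ ℂ ℂ).comp A‖ ≤ 1 / lam₀ := by
        refine ContinuousLinearMap.opNorm_le_bound _ (by positivity) fun c => ?_
        have e : ((ContinuousLinearMap.fst ℝ ℂ ℂ).comp A) c = u⁻¹ * c := rfl
        rw [e, norm_mul, norm_inv]
        have h2 : ‖u‖ = t₀ := by
          rw [hu, norm_mul, norm_pow, norm_ph hz, Complex.norm_real, Real.norm_of_nonneg ht0.le]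
          simp
        rw [h2, ← one_div]
        exact mul_le_mul_of_nonneg_right (one_div_le_one_div_of_le hlam ht) (norm_nonneg _)
      calc _ ≤ (1 - L / lam₀) / 2 + L * (1 / lam₀) := by gcongr
        _ = (1 - L / lam₀) / 2 + L / lam₀ := by ring
        _ < 1 := hk1
    · filter_upwards [hev, mem_nhdsWithin_of_mem_nhds hW] with l h1 h2
      refine MRegOn.congr_on (h1.mono inter_subset_left) fun q hq => ?_
      have h3 : l * ‖q.1‖ < ‖q.2‖ := hWV (mk_mem_prod h2 hq.2)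
      exact (lk_of_ge h3.le).symm

/-- **`lk` is a link.** -/
theorem link_lk {lam₀ L : ℝ} (ha : a ≠ 0) (hL0 : 0 ≤ L) (hL : L < lam₀) :
    Link (Ici lam₀) L (1 + a) (fun lam => lk lam a) where
  cont := (continuousOn_lk a).mono (prod_mono (Ici_subset_Ici.mpr (hL0.trans hL.le)) Subset.rfl)
  hom := fun t ht r hr y z => lk_smul ((hL0.trans hL.le).trans ht) a hr y z
  zero := fun t ht y => lk_zero_right ((hL0.trans hL.le).trans ht) a y
  lip := fun t ht y z z' => by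
    have ht0 : 0 ≤ t := (hL0.trans hL.le).trans ht
    exact trunc_lip (mul_nonneg ht0 (norm_nonneg y)) (norm_ph_le y) a z z'
  small := fun t₀ ht₀ y₀ hy₀ ε hε => by
    have hlam : 0 < lam₀ := hL0.trans_lt hL
    have hy0 : 0 < ‖y₀‖ := norm_pos_iff.mpr hy₀
    refine ⟨Metric.ball y₀ (‖y₀‖ / 2), Metric.ball_mem_nhds _ (by positivity), ?_⟩
    have h1 : ∀ᶠ z in 𝓝 (0 : ℂ), ‖z‖ < min (lam₀ * (‖y₀‖ / 2)) (ε * (‖y₀‖ / 2)) := by
      have : (0 : ℝ) < min (lam₀ * (‖y₀‖ / 2)) (ε * (‖y₀‖ / 2)) := by positivity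
      have h2 : Tendsto (fun z : ℂ => ‖z‖) (𝓝 0) (𝓝 0) := by
        have := (continuous_norm (E := ℂ)).tendsto 0
        rwa [norm_zero] at this
      exact h2.eventually (gt_mem_nhds this)
    have h2 : ∀ᶠ p : ℝ × ℂ in 𝓝[Ici lam₀ ×ˢ (univ : Set ℂ)] (t₀, (0 : ℂ)),
        ‖p.2‖ < min (lam₀ * (‖y₀‖ / 2)) (ε * (‖y₀‖ / 2)) :=
      (continuousWithinAt_snd (s := Ici lam₀ ×ˢ (univ : Set ℂ)) (p := (t₀, (0 : ℂ)))).eventually h1
    filter_upwards [h2, self_mem_nhdsWithin] with p hp hps y hy y' hy'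
    have hb : ∀ y ∈ Metric.ball y₀ (‖y₀‖ / 2), ‖y₀‖ / 2 ≤ ‖y‖ := by
      intro y hy
      rw [Metric.mem_ball, dist_eq_norm] at hy
      have := norm_sub_norm_le y₀ (y₀ - y)
      rw [sub_sub_cancel, norm_sub_rev] at this
      linarith
    have hin : ∀ y ∈ Metric.ball y₀ (‖y₀‖ / 2), ‖p.2‖ ≤ p.1 * ‖y‖ := by
      intro y hy
      calc ‖p.2‖ ≤ lam₀ * (‖y₀‖ / 2) := (hp.le.trans (min_le_left _ _))
        _ ≤ p.1 * ‖y‖ := mul_le_mul hps.1 (hb y hy) (by positivity) (hlam.le.trans hps.1)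
    rw [lk_of_le (hin y hy), lk_of_le (hin y' hy')]
    have e : ((‖p.2‖ : ℝ) : ℂ) * (ph y * ph p.2 ^ a) - ((‖p.2‖ : ℝ) : ℂ) * (ph y' * ph p.2 ^ a) =
        ((‖p.2‖ : ℝ) : ℂ) * ((ph y - ph y') * ph p.2 ^ a) := by ring
    rw [e, norm_mul, norm_mul, norm_pow, Complex.norm_real, norm_norm]
    have h3 : (‖y₀‖ / 2) * ‖ph y - ph y'‖ ≤ ‖y - y'‖ := by
      rcases le_total ‖y‖ ‖y'‖ with h | h
      · exact (mul_le_mul_of_nonneg_right (hb y hy) (norm_nonneg _)).trans (ph_lip_aux h)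
      · rw [norm_sub_rev, norm_sub_rev y]
        exact (mul_le_mul_of_nonneg_right (hb y' hy') (norm_nonneg _)).trans (ph_lip_aux h)
    calc ‖p.2‖ * (‖ph y - ph y'‖ * ‖ph p.2‖ ^ a)
        ≤ (ε * (‖y₀‖ / 2)) * (‖ph y - ph y'‖ * 1) := by
          refine mul_le_mul (hp.le.trans (min_le_right _ _)) ?_ (by positivity) (by positivity)
          exact mul_le_mul_of_nonneg_left (pow_le_one₀ (norm_nonneg _) (norm_ph_le _))
            (norm_nonneg _)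
      _ = ε * ((‖y₀‖ / 2) * ‖ph y - ph y'‖) := by ring
      _ ≤ ε * ‖y - y'‖ := mul_le_mul_of_nonneg_left h3 hε.le
  reg := fun t₀ ht₀ y₀ z₀ hz => lk_linkReg ha hL0 hL ht₀ y₀ hz

end Reg

end Vale.Agent.P268.T
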