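import Vale.Agent.P268.T.H128.Ind
import Vale.Agent.P268.T.H548.Lk

/-!
# P268, topological half, route V: the plug `ChainLink` of the list induction
-/

namespace Vale.Agent.P268.T.RV

open Set

/-- The chain links can be attached to tame families, whatever the Lipschitz constant `L`. -/
theorem chainLink : ChainLink (fun a => 1 + (a : ℝ)) := by
  intro L a ha
  have ha0 : a ≠ 0 := by omega
  have hm : (0 : ℝ) ≤ max L 0 := le_max_right _ _
  refine ⟨max L 0 + 1, ?_⟩
  exact (link_lk ha0 hm (lt_add_one _)).mono_lip (le_max_left _ _) le_rfl

end Vale.Agent.P268.T.RV
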