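import Mathlib

/-!
# P268, topological half: quasi-periodic extension of functions of an angle

`qe d f`: the extension of `f` on `[-π, π]` to the real line with increment `2πd` over `2π`.
-/

namespace Vale.Agent.P268.T.Tau

open Set Filter Topology

/-- The index of the period. -/
noncomputable def ixp (g : ℝ) : ℤ := ⌊(g + Real.pi) / (2 * Real.pi)⌋

/-- The reduced angle, in `[-π, π)`. -/
noncomputable def rdc (g : ℝ) : ℝ := g - ixp g * (2 * Real.pi)

/-- Quasi-periodic extension. -/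
noncomputable def qe (d : ℝ) (f : ℝ → ℝ) (g : ℝ) : ℝ := f (rdc g) + ixp g * (d * (2 * Real.pi))

theorem neg_pi_le_rdc (g : ℝ) : -Real.pi ≤ rdc g := by
  have h := Int.floor_le ((g + Real.pi) / (2 * Real.pi))
  rw [le_div_iff₀ Real.two_pi_pos] at h
  unfold rdc ixp
  linarith

theorem rdc_lt_pi (g : ℝ) : rdc g < Real.pi := by
  have h := Int.lt_floor_add_one ((g + Real.pi) / (2 * Real.pi))
  rw [div_lt_iff₀ Real.two_pi_pos] at h
  unfold rdc ixp
  linarith

theorem ixp_eq {g : ℝ} {n : ℤ} (h1 : -Real.pi ≤ g - n * (2 * Real.pi))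
    (h2 : g - n * (2 * Real.pi) < Real.pi) : ixp g = n := by
  unfold ixp
  rw [Int.floor_eq_iff, le_div_iff₀ Real.two_pi_pos, div_lt_iff₀ Real.two_pi_pos]
  constructor <;> linarith

theorem ixp_mono {g g' : ℝ} (h : g ≤ g') : ixp g ≤ ixp g' := by
  unfold ixp
  exact Int.floor_le_floor (div_le_div_of_nonneg_right (by linarith) Real.two_pi_pos.le)

theorem ixp_add (g : ℝ) : ixp (g + 2 * Real.pi) = ixp g + 1 := by
  refine ixp_eq ?_ ?_
  · have := neg_pi_le_rdc g
    unfold rdc at this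
    push_cast; linarith
  · have := rdc_lt_pi g
    unfold rdc at this
    push_cast; linarith

theorem rdc_add (g : ℝ) : rdc (g + 2 * Real.pi) = rdc g := by
  unfold rdc
  rw [ixp_add]
  push_cast; ring

theorem qe_add (d : ℝ) (f : ℝ → ℝ) (g : ℝ) :
    qe d f (g + 2 * Real.pi) = qe d f g + d * (2 * Real.pi) := by
  unfold qe
  rw [ixp_add, rdc_add]
  push_cast; ring

/-- The gluing condition, on the interval `|θ + π| ≤ ε`. -/
def GlueAt (d ε : ℝ) (f : ℝ → ℝ) : Prop :=
  ∀ θ : ℝ, |θ + Real.pi| ≤ ε → f (θ + 2 * Real.pi) = f θ + d * (2 * Real.pi)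

/-- **Local formula.** -/
theorem qe_local {d ε : ℝ} {f : ℝ → ℝ} (hf : GlueAt d ε f) (hε1 : ε ≤ Real.pi) {g : ℝ}
    {n : ℤ} (h1 : -Real.pi - ε ≤ g - n * (2 * Real.pi)) (h2 : g - n * (2 * Real.pi) ≤ Real.pi + ε) :
    qe d f g = f (g - n * (2 * Real.pi)) + n * (d * (2 * Real.pi)) := by
  have hpi := Real.pi_pos
  rcases lt_or_ge (g - n * (2 * Real.pi)) (-Real.pi) with h | h
  · have hn : ixp g = n - 1 := ixp_eq (by push_cast; linarith) (by push_cast; linarith)
    have h3 := hf (g - n * (2 * Real.pi)) (by rw [abs_le]; constructor <;> linarith)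
    unfold qe rdc
    rw [hn]
    have e : g - ((n - 1 : ℤ) : ℝ) * (2 * Real.pi) = g - n * (2 * Real.pi) + 2 * Real.pi := by
      push_cast; ring
    rw [e, h3]
    push_cast; ring
  · rcases lt_or_ge (g - n * (2 * Real.pi)) Real.pi with h' | h'
    · have hn : ixp g = n := ixp_eq h h'
      unfold qe rdc
      rw [hn]
    · have hn : ixp g = n + 1 := ixp_eq (by push_cast; linarith) (by push_cast; linarith)
      have h3 := hf (g - (n + 1) * (2 * Real.pi)) (by rw [abs_le]; constructor <;> linarith)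
      unfold qe rdc
      rw [hn]
      have e : g - (n + 1) * (2 * Real.pi) + 2 * Real.pi = g - n * (2 * Real.pi) := by ring
      rw [e] at h3
      rw [h3]
      push_cast; ring

theorem qe_of_mem {d : ℝ} {f : ℝ → ℝ} (hf : GlueAt d 0 f) {g : ℝ} (h1 : -Real.pi ≤ g)
    (h2 : g ≤ Real.pi) : qe d f g = f g := by
  have h := qe_local (n := 0) hf Real.pi_pos.le (g := g) (by simpa using h1) (by simpa using h2)
  simpa using h

theorem GlueAt.mono {d ε ε' : ℝ} {f : ℝ → ℝ} (hf : GlueAt d ε f) (h : ε' ≤ ε) : GlueAt d ε' f :=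
  fun θ hθ => hf θ (hθ.trans h)

/-- Increments of the extension. -/
theorem qe_incr {d K : ℝ} {f : ℝ → ℝ} (hf : GlueAt d 0 f)
    (hi : ∀ x y, x ≤ y → 0 ≤ f y - f x ∧ f y - f x ≤ K * (y - x)) {x y : ℝ} (hxy : x ≤ y) :
    0 ≤ qe d f y - qe d f x ∧ qe d f y - qe d f x ≤ K * (y - x) := by
  have hpi := Real.pi_pos
  have hp : f Real.pi = f (-Real.pi) + d * (2 * Real.pi) := by
    have := hf (-Real.pi) (by simp)
    have e : -Real.pi + 2 * Real.pi = Real.pi := by ring
    rwa [e] at this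
  have hd := hi (-Real.pi) Real.pi (by linarith)
  have x1 := neg_pi_le_rdc x
  have x2 := rdc_lt_pi x
  have y1 := neg_pi_le_rdc y
  have y2 := rdc_lt_pi y
  have hmn := ixp_mono hxy
  have ex : x = rdc x + ixp x * (2 * Real.pi) := by unfold rdc; ring
  have ey : y = rdc y + ixp y * (2 * Real.pi) := by unfold rdc; ring
  rcases hmn.eq_or_lt with h | h
  · have h3 := hi (rdc x) (rdc y) (by
      rw [ex, ey, h] at hxy; linarith)
    unfold qe
    rw [h]
    have : y - x = rdc y - rdc x := by rw [h] at ex; linarith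
    rw [this]
    constructor
    · linarith [h3.1]
    · linarith [h3.2]
  · have h1 : (ixp x : ℝ) + 1 ≤ ixp y := by exact_mod_cast h
    have a1 := hi (-Real.pi) (rdc y) y1
    have a2 := hi (rdc x) Real.pi x2.le
    obtain ⟨k, hk⟩ : ∃ k : ℝ, k = (ixp y : ℝ) - ixp x - 1 := ⟨_, rfl⟩
    have hk0 : 0 ≤ k := by linarith
    have e1 : qe d f y - qe d f x =
        (f (rdc y) - f (-Real.pi)) + (f Real.pi - f (rdc x)) + k * (f Real.pi - f (-Real.pi)) := by
      unfold qe
      rw [hp, hk]; ring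
    have e2 : y - x = (rdc y - (-Real.pi)) + (Real.pi - rdc x) + k * (Real.pi - (-Real.pi)) := by
      rw [hk]
      linarith
    have b1 := mul_nonneg hk0 hd.1
    have b2 := mul_le_mul_of_nonneg_left hd.2 hk0
    rw [e1, e2]
    constructor
    · linarith [a1.1, a2.1]
    · linarith [a1.2, a2.2]

theorem qe_bd {d D : ℝ} {f : ℝ → ℝ} (hD : ∀ x, -Real.pi ≤ x → x ≤ Real.pi → |f x - d * x| ≤ D)
    (g : ℝ) : |qe d f g - d * g| ≤ D := by
  have h := hD (rdc g) (neg_pi_le_rdc g) (rdc_lt_pi g).le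
  have e : qe d f g - d * g = f (rdc g) - d * rdc g := by
    unfold qe rdc; ring
  rw [e]; exact h

end Vale.Agent.P268.T.Tau
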