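import Vale.Agent.P268.T.H548.TauPlug
import Vale.Agent.P268.T.A306.TauReg
import Vale.Agent.P268.T.H740.Y0

/-!
# P268, topological half, route V: the tau move and the phase move
-/

set_option linter.unusedSectionVars false

namespace Vale.Agent.P268.T.TP548

open Set Filter Topology Vale.Agent.P268.T.Tau Vale.Agent.P268.T.RV Vale.Agent.P268.T.H740

theorem regLt : RegLt := by
  intro E _ _ _ L B hB a K D σ v W Ω ha hL hT
  exact Tau.reg_lt hB ha hL hT

theorem regY0 : RegY0 := by
  intro E _ _ _ L B hB a K D σ v W Ω _ hL _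
  have hlip : ∀ (X : E) (y y' : ℂ), ‖B (X, y) - B (X, y')‖ ≤ L * ‖y - y'‖ :=
    fun X y y' => hB.lip () (mem_univ _) X y y'
  have hL0 : 0 ≤ L := by
    have := (norm_nonneg _).trans (hlip 0 1 0)
    simpa using this
  refine ⟨L + 1, fun l hl p hp hp2 X₀ z₀ hz₀ _ => ?_⟩
  exact reg_y0 hL hL0 (by linarith) hlip hp hp2 X₀ hz₀

/-- **The tau move and the phase move**, from the tameness of the level step. -/
theorem tauPhaseW {L₂ : ℕ → ℝ} (hlev : LevTameW L₂) :
    TauPhaseW (fun a => 2 * (1 + CK a (K2 a))) :=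
  tauPhaseW_of regLt regY0 hlev

end Vale.Agent.P268.T.TP548
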