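import Vale.Agent.P268.T.H548.Ext
import Vale.Agent.P268.T.H548.Defs
import Vale.Agent.P268.T.A306.TauDef
import Vale.Agent.P268.T.H128.PolarLip
import Vale.Agent.P268.T.H266.Lev

/-!
# P268, topological half, route V: the lifts of the frozen profiles

`Wp a` and `Op T a`: quasi-periodic lifts of the phases of `lkw T a lam 0`, with the properties
`Tau.Lift` and `Tau.Tri`.
-/

set_option linter.unusedSectionVars false

namespace Vale.Agent.P268.T.TP548

open Set Filter Topology Vale.Agent.P268.T.Tau Vale.Agent.P268.T.RV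

/-! ### Facts on `prof` -/

theorem prof_low {T : ℕ} {θ : ℝ} (h : xc T θ ≤ 1) : prof T θ = Real.pi := by
  rw [prof, Finset.sum_eq_zero, mul_zero, add_zero]
  intro k _
  refine clamp01_of_le_zero ?_
  have : (0 : ℝ) ≤ k := by positivity
  linarith

theorem prof_high {T : ℕ} {θ : ℝ} (h : 2 * (T : ℝ) ≤ xc T θ) :
    prof T θ = Real.pi + T * (2 * Real.pi) := by
  rw [prof]
  have : ∑ k ∈ Finset.range T, clamp01 (xc T θ - (2 * k + 1)) = T := by
    rw [Finset.sum_congr rfl (g := fun _ => (1 : ℝ)) ?_]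
    · simp
    · intro k hk
      have hk' : (k : ℝ) + 1 ≤ T := by exact_mod_cast Finset.mem_range.mp hk
      exact clamp01_eq_one (by linarith)
  rw [this]; ring

theorem xc_add (T : ℕ) (θ : ℝ) : xc T (θ + 2 * Real.pi) = xc T θ + (2 * T + 1) := by
  have hpi := Real.pi_pos
  rw [xc, xc]; field_simp; ring

/-- The half-width of the rest around `π`. -/
noncomputable def wd (T : ℕ) : ℝ := 2 * Real.pi / (2 * T + 1)

theorem wd_pos (T : ℕ) : 0 < wd T := by
  have hpi := Real.pi_pos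
  unfold wd; positivity

theorem xc_wd {T : ℕ} {θ : ℝ} (h : |θ + Real.pi| ≤ wd T) : -1 ≤ xc T θ ∧ xc T θ ≤ 1 := by
  have hpi := Real.pi_pos
  have hT : (0 : ℝ) < 2 * T + 1 := by positivity
  obtain ⟨h1, h2⟩ := abs_le.mp h
  have e : wd T * (2 * T + 1) = 2 * Real.pi := by unfold wd; field_simp
  have g1 := mul_le_mul_of_nonneg_right h1 hT.le
  have g2 := mul_le_mul_of_nonneg_right h2 hT.le
  unfold xc
  rw [le_div_iff₀ (by positivity), div_le_iff₀ (by positivity)]
  constructor
  · linarith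
  · linarith

theorem prof_glue_low {T : ℕ} {θ : ℝ} (h : |θ + Real.pi| ≤ wd T) : prof T θ = Real.pi :=
  prof_low (xc_wd h).2

theorem prof_glue_high {T : ℕ} {θ : ℝ} (h : |θ + Real.pi| ≤ wd T) :
    prof T (θ + 2 * Real.pi) = Real.pi + T * (2 * Real.pi) := by
  refine prof_high ?_
  rw [xc_add]
  linarith [(xc_wd h).1]

theorem glue_prof (T : ℕ) : GlueAt T (wd T) (prof T) := fun θ hθ => by
  rw [prof_glue_low hθ, prof_glue_high hθ]

theorem prof_incr {T : ℕ} {x y : ℝ} (h : x ≤ y) :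
    0 ≤ prof T y - prof T x ∧ prof T y - prof T x ≤ T * (2 * T + 1) * (y - x) := by
  refine ⟨sub_nonneg.mpr (prof_mono h), ?_⟩
  have h1 := prof_lip T y x
  rw [abs_of_nonneg (by linarith : 0 ≤ y - x)] at h1
  exact (le_abs_self _).trans h1

theorem pi_le_prof (T : ℕ) (θ : ℝ) : Real.pi ≤ prof T θ := by
  have hpi := Real.pi_pos
  have h : 0 ≤ ∑ k ∈ Finset.range T, clamp01 (xc T θ - (2 * k + 1)) :=
    Finset.sum_nonneg fun k _ => clamp01_nonneg _
  unfold prof
  nlinarith

theorem prof_le (T : ℕ) (θ : ℝ) : prof T θ ≤ Real.pi + T * (2 * Real.pi) := by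
  have hpi := Real.pi_pos
  have h : ∑ k ∈ Finset.range T, clamp01 (xc T θ - (2 * k + 1)) ≤ T := by
    refine (Finset.sum_le_card_nsmul _ _ 1 fun k _ => clamp01_le_one _).trans ?_
    simp
  unfold prof
  nlinarith

/-- At every angle the profile is an odd multiple of `π` or turns with speed `2T + 1`. -/
theorem prof_dich (T : ℕ) (θ₀ : ℝ) : (∃ n : ℤ, prof T θ₀ = (2 * n + 1) * Real.pi) ∨
    ∃ δ > 0, ∀ x y, |x - θ₀| < δ → |y - θ₀| < δ →
      prof T y - prof T x = (2 * T + 1) * (y - x) := by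
  rcases le_or_gt (xc T θ₀) 1 with h0 | h0
  · left
    refine ⟨0, ?_⟩
    rw [prof_low h0]; simp
  rcases le_or_gt (2 * (T : ℝ)) (xc T θ₀) with h1 | h1
  · left
    refine ⟨T, ?_⟩
    rw [prof_high h1]; push_cast; ring
  rcases rest_or_turn (T := T) (x := xc T θ₀) (by linarith) (by linarith) with
    ⟨k, hk, h2, h3⟩ | ⟨k, hk, h2, h3⟩
  · left
    refine ⟨k, ?_⟩
    rw [prof_eq_rest hk h2 h3]; push_cast; ring
  · right
    have hc : Continuous (xc T) := by unfold xc; fun_prop
    have h4 : ∀ᶠ x in 𝓝 θ₀, 2 * (k : ℝ) + 1 < xc T x ∧ xc T x < 2 * k + 2 :=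
      (hc.continuousAt.eventually (lt_mem_nhds h2)).and
        (hc.continuousAt.eventually (gt_mem_nhds h3))
    obtain ⟨δ, hδ, h5⟩ := Metric.eventually_nhds_iff.mp h4
    refine ⟨δ, hδ, fun x y hx hy => ?_⟩
    have hx' := h5 (y := x) (by rwa [Real.dist_eq])
    have hy' := h5 (y := y) (by rwa [Real.dist_eq])
    rw [prof_eq_turn hk hx'.1.le hx'.2.le, prof_eq_turn hk hy'.1.le hy'.2.le]
    have e := xc_sub T y x
    have hpi := Real.pi_ne_zero
    have e2 : 2 * Real.pi * (xc T y - xc T x) = (2 * T + 1) * (y - x) := by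
      rw [e]; field_simp
    linarith

/-! ### Facts on `Lam` -/

theorem Lam_incr_left (a : ℕ) {S S' : ℝ} (V : ℝ) (h : S ≤ S') :
    0 ≤ Lam a S' V - Lam a S V ∧ Lam a S' V - Lam a S V ≤ S' - S := by
  have h0 : Lam a S V ≤ Lam a S' V := by
    unfold Lam
    exact min_le_min (max_le_max le_rfl (min_le_min h le_rfl)) (by linarith)
  have h1 : Lam a S' V ≤ Lam a S V + (S' - S) := by
    unfold Lam
    rw [← min_add_add_right, ← max_add_add_right, ← min_add_add_right, ← min_add_add_right]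
    refine min_le_min (max_le_max (by linarith) (min_le_min (by linarith)
      (min_le_min (by linarith) (by linarith)))) (by linarith)
  exact ⟨by linarith, by linarith⟩

theorem Lam_incr_right (a : ℕ) (S : ℝ) {V V' : ℝ} (h : V ≤ V') :
    0 ≤ Lam a S V' - Lam a S V ∧ Lam a S V' - Lam a S V ≤ V' - V := by
  have h0 : Lam a S V ≤ Lam a S V' := by
    unfold Lam
    exact min_le_min (max_le_max (by linarith) (min_le_min le_rfl (min_le_min h le_rfl))) le_rfl
  have h1 : Lam a S V' ≤ Lam a S V + (V' - V) := by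
    unfold Lam
    rw [← min_add_add_right, ← max_add_add_right, ← min_add_add_right, ← min_add_add_right]
    refine min_le_min (max_le_max (by linarith) (min_le_min (by linarith)
      (min_le_min (by linarith) (by linarith)))) (by linarith)
  exact ⟨by linarith, by linarith⟩

theorem Lam_V_low {a : ℕ} {S : ℝ} (hS : -Real.pi ≤ S) : Lam a S Real.pi = min S Real.pi := by
  have hpi := Real.pi_pos
  have ha : (0 : ℝ) ≤ a := by positivity
  unfold Lam
  rw [min_eq_left (by nlinarith : Real.pi ≤ (2 * a + 1) * Real.pi),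
    max_eq_right (le_min (by linarith) (by linarith)), min_eq_left]
  have := min_le_left S Real.pi
  have : 0 ≤ 2 * (a : ℝ) * Real.pi := by positivity
  linarith

theorem Lam_V_high {a : ℕ} {S : ℝ} : Lam a S (Real.pi + (a + 1 : ℕ) * (2 * Real.pi)) =
    min S Real.pi + a * (2 * Real.pi) := by
  have hpi := Real.pi_pos
  have ha : (0 : ℝ) ≤ a := by positivity
  unfold Lam
  push_cast
  rw [min_eq_right (by nlinarith :
    (2 * a + 1) * Real.pi ≤ Real.pi + (a + 1) * (2 * Real.pi))]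
  have e3 : Real.pi + ((a : ℝ) + 1) * (2 * Real.pi) - 2 * Real.pi = (2 * a + 1) * Real.pi := by ring
  rw [e3, max_eq_left (min_le_right _ _), ← min_add_add_right, min_comm]
  congr 1
  · ring
  · ring

theorem Lam_S_high {a : ℕ} {S V : ℝ} (hS : (2 * a + 1) * Real.pi ≤ S)
    (hV : V ≤ (2 * a + 3) * Real.pi) : Lam a S V = min V ((2 * a + 1) * Real.pi) := by
  have hpi := Real.pi_pos
  have ha : (0 : ℝ) ≤ 2 * a * Real.pi := by positivity
  unfold Lam
  rw [min_eq_right ((min_le_right _ _).trans hS), max_eq_right, min_eq_left]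
  · refine (min_le_right _ _).trans (hS.trans ?_)
    linarith
  · refine le_min (by linarith) ?_
    have e : (2 * a + 3) * Real.pi = (2 * a + 1) * Real.pi + 2 * Real.pi := by ring
    linarith

theorem Lam_S_low {a : ℕ} {V : ℝ} (hV : Real.pi ≤ V) :
    Lam a (-Real.pi) V = min V ((2 * a + 1) * Real.pi) - 2 * Real.pi := by
  have hpi := Real.pi_pos
  have ha : (0 : ℝ) ≤ a := by positivity
  unfold Lam
  rw [min_eq_left (le_min (by linarith) (by nlinarith)), max_eq_left (by linarith),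
    ← min_sub_sub_right]
  congr 1
  ring

theorem Lam_ge (a : ℕ) {S V : ℝ} (hS : -Real.pi ≤ S) (hV : Real.pi ≤ V) :
    -Real.pi ≤ Lam a S V := by
  have hpi := Real.pi_pos
  have ha : (0 : ℝ) ≤ 2 * a * Real.pi := by positivity
  unfold Lam
  exact le_min ((by linarith : -Real.pi ≤ V - 2 * Real.pi).trans (le_max_left _ _)) (by linarith)

theorem Lam_le (a : ℕ) {S V : ℝ} (hV : V ≤ (2 * a + 3) * Real.pi) :
    Lam a S V ≤ (2 * a + 1) * Real.pi := by
  unfold Lam
  refine (min_le_left _ _).trans (max_le (by linarith) ?_)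
  exact (min_le_right _ _).trans (min_le_right _ _)

/-- The trichotomy for the window phase. -/
theorem Lam_tri (a : ℕ) (S₀ V₀ : ℝ) :
    (Lam a S₀ V₀ = V₀ ∨ Lam a S₀ V₀ = V₀ - 2 * Real.pi) ∨
    (∃ c : ℤ, ∃ δ > 0, ∀ S V, |S - S₀| < δ → |V - V₀| < δ → Lam a S V = S + c * (2 * Real.pi)) ∨
    (Lam a S₀ V₀ = (2 * a + 1) * Real.pi ∧ ∃ δ > 0, ∀ S V, |S - S₀| < δ → |V - V₀| < δ →
      Lam a S V = min S ((2 * a + 1) * Real.pi)) := by
  have hpi := Real.pi_pos
  have ha : (0 : ℝ) ≤ 2 * a * Real.pi := by positivity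
  set R : ℝ := (2 * a + 1) * Real.pi with hR
  have hL : ∀ S V, Lam a S V = min (max (V - 2 * Real.pi) (min S (min V R)))
      (S + 2 * a * Real.pi) := fun S V => rfl
  rcases lt_or_ge (S₀ + 2 * a * Real.pi) (V₀ - 2 * Real.pi) with h1 | h1
  · -- `S + 2 a π`
    right; left
    refine ⟨a, (V₀ - 2 * Real.pi - (S₀ + 2 * a * Real.pi)) / 2, by linarith, fun S V hS hV => ?_⟩
    obtain ⟨s1, s2⟩ := abs_lt.mp hS
    obtain ⟨v1, v2⟩ := abs_lt.mp hV
    rw [hL, min_eq_right]
    · push_cast; ring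
    · exact (by linarith : S + 2 * a * Real.pi ≤ V - 2 * Real.pi).trans (le_max_left _ _)
  · have e0 : Lam a S₀ V₀ = max (V₀ - 2 * Real.pi) (min S₀ (min V₀ R)) := by
      rw [hL, min_eq_left]
      refine max_le h1 ((min_le_left _ _).trans (by linarith))
    rcases le_or_gt (min S₀ (min V₀ R)) (V₀ - 2 * Real.pi) with h2 | h2
    · left; right
      rw [e0, max_eq_left h2]
    · have e1 : Lam a S₀ V₀ = min S₀ (min V₀ R) := by rw [e0, max_eq_right h2.le]
      have h3 : V₀ - 2 * Real.pi < S₀ := h2.trans_le (min_le_left _ _)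
      have h4 : V₀ - 2 * Real.pi < R := h2.trans_le ((min_le_right _ _).trans (min_le_right _ _))
      rcases le_or_gt V₀ (min S₀ R) with h5 | h5
      · left; left
        rw [e1, min_eq_left (h5.trans (min_le_right _ _)), min_eq_right (h5.trans (min_le_left _ _))]
      · right
        rcases lt_or_ge S₀ R with h6 | h6
        · left
          rw [min_eq_left h6.le] at h5
          refine ⟨0, min ((R - S₀) / 2) (min ((V₀ - S₀) / 2) ((S₀ - (V₀ - 2 * Real.pi)) / 2)),
            lt_min (by linarith) (lt_min (by linarith) (by linarith)), fun S V hS hV => ?_⟩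
          obtain ⟨s1, s2⟩ := abs_lt.mp hS
          obtain ⟨v1, v2⟩ := abs_lt.mp hV
          have d1 := min_le_left ((R - S₀) / 2) (min ((V₀ - S₀) / 2)
            ((S₀ - (V₀ - 2 * Real.pi)) / 2))
          have d2 := (min_le_right ((R - S₀) / 2) (min ((V₀ - S₀) / 2)
            ((S₀ - (V₀ - 2 * Real.pi)) / 2))).trans (min_le_left _ _)
          have d3 := (min_le_right ((R - S₀) / 2) (min ((V₀ - S₀) / 2)
            ((S₀ - (V₀ - 2 * Real.pi)) / 2))).trans (min_le_right _ _)
          rw [hL, min_eq_left (le_min (by linarith) (by linarith) : S ≤ min V R),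
            max_eq_right (by linarith), min_eq_left (by linarith)]
          simp
        · right
          rw [min_eq_right h6] at h5
          refine ⟨by rw [e1, min_eq_right h5.le, min_eq_right h6],
            min (V₀ - R) (min (R + 2 * Real.pi - V₀) ((S₀ - (V₀ - 2 * Real.pi)) / 2)),
            lt_min (by linarith) (lt_min (by linarith) (by linarith)), fun S V hS hV => ?_⟩
          obtain ⟨s1, s2⟩ := abs_lt.mp hS
          obtain ⟨v1, v2⟩ := abs_lt.mp hV
          have d1 := min_le_left (V₀ - R) (min (R + 2 * Real.pi - V₀)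
            ((S₀ - (V₀ - 2 * Real.pi)) / 2))
          have d2 := (min_le_right (V₀ - R) (min (R + 2 * Real.pi - V₀)
            ((S₀ - (V₀ - 2 * Real.pi)) / 2))).trans (min_le_left _ _)
          have d3 := (min_le_right (V₀ - R) (min (R + 2 * Real.pi - V₀)
            ((S₀ - (V₀ - 2 * Real.pi)) / 2))).trans (min_le_right _ _)
          rw [hL, min_eq_right (by linarith : R ≤ V),
            max_eq_right (le_min (by linarith) (by linarith)), min_eq_left]
          exact (min_le_left _ _).trans (by linarith)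

/-! ### The lifts -/

/-- The lift of the core phase. -/
noncomputable def Wp (a : ℕ) : ℝ → ℝ := qe ((a + 1 : ℕ) : ℝ) (prof (a + 1))

/-- The inner extension. -/
noncomputable def Oi (a : ℕ) (S : ℝ) : ℝ → ℝ := qe a (fun g => Lam a S (prof (a + 1) g))

/-- The lift of the window phase. -/
noncomputable def Op (T a : ℕ) (α g : ℝ) : ℝ :=
  qe 1 (fun α' => Oi a (prof T α' - 2 * Real.pi) g) α

theorem Oi_eq (a : ℕ) (S g : ℝ) :
    Oi a S g = Lam a S (prof (a + 1) (rdc g)) + ixp g * (a * (2 * Real.pi)) := rfl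

theorem Op_eq (T a : ℕ) (α g : ℝ) : Op T a α g =
    Lam a (prof T (rdc α) - 2 * Real.pi) (prof (a + 1) (rdc g)) + ixp g * (a * (2 * Real.pi)) +
      ixp α * (1 * (2 * Real.pi)) := rfl

theorem neg_pi_le_S (T : ℕ) (θ : ℝ) : -Real.pi ≤ prof T θ - 2 * Real.pi := by
  linarith [pi_le_prof T θ]

theorem V_le (a : ℕ) (θ : ℝ) : prof (a + 1) θ ≤ (2 * a + 3) * Real.pi := by
  refine (prof_le (a + 1) θ).trans (le_of_eq ?_)
  push_cast; ring

theorem glue_inner {a : ℕ} {S : ℝ} (hS : -Real.pi ≤ S) :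
    GlueAt a (wd (a + 1)) (fun g => Lam a S (prof (a + 1) g)) := by
  intro θ hθ
  show Lam a S (prof (a + 1) (θ + 2 * Real.pi)) = Lam a S (prof (a + 1) θ) + a * (2 * Real.pi)
  rw [prof_glue_low hθ, prof_glue_high hθ, Lam_V_high, Lam_V_low hS]

theorem glue_outer {T a : ℕ} (haT : a + 1 ≤ T) (g : ℝ) :
    GlueAt 1 (wd T) (fun α' => Oi a (prof T α' - 2 * Real.pi) g) := by
  intro θ hθ
  have hpi := Real.pi_pos
  have hT : (a : ℝ) + 1 ≤ T := by exact_mod_cast haT
  show Oi a (prof T (θ + 2 * Real.pi) - 2 * Real.pi) g =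
    Oi a (prof T θ - 2 * Real.pi) g + 1 * (2 * Real.pi)
  rw [prof_glue_low hθ, prof_glue_high hθ, Oi_eq, Oi_eq]
  have e1 : Real.pi - 2 * Real.pi = -Real.pi := by ring
  rw [e1, Lam_S_low (pi_le_prof _ _), Lam_S_high _ (V_le a _)]
  · ring
  · nlinarith

theorem wd_le (T : ℕ) (hT : 1 ≤ T) : wd T ≤ Real.pi := by
  have hpi := Real.pi_pos
  have hT' : (1 : ℝ) ≤ T := by exact_mod_cast hT
  unfold wd
  rw [div_le_iff₀ (by positivity)]
  nlinarith

theorem Wp_incr (a : ℕ) {x y : ℝ} (h : x ≤ y) :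
    0 ≤ Wp a y - Wp a x ∧ Wp a y - Wp a x ≤ (a + 1) * (2 * a + 3) * (y - x) := by
  refine qe_incr ((glue_prof (a + 1)).mono (wd_pos _).le) (fun x y hxy => ?_) h
  have h1 := prof_incr (T := a + 1) hxy
  refine ⟨h1.1, h1.2.trans (le_of_eq ?_)⟩
  push_cast; ring

theorem Oi_incr (a : ℕ) {S : ℝ} (hS : -Real.pi ≤ S) {x y : ℝ} (h : x ≤ y) :
    0 ≤ Oi a S y - Oi a S x ∧ Oi a S y - Oi a S x ≤ (a + 1) * (2 * a + 3) * (y - x) := by
  refine qe_incr ((glue_inner hS).mono (wd_pos _).le) (fun x y hxy => ?_) h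
  have h1 := prof_incr (T := a + 1) hxy
  have h2 := Lam_incr_right a S (prof_mono (T := a + 1) hxy)
  refine ⟨h2.1, (h2.2.trans h1.2).trans (le_of_eq ?_)⟩
  push_cast; ring

theorem Op_incr2 (T a : ℕ) (α : ℝ) {x y : ℝ} (h : x ≤ y) :
    0 ≤ Op T a α y - Op T a α x ∧ Op T a α y - Op T a α x ≤ (a + 1) * (2 * a + 3) * (y - x) := by
  have h1 := Oi_incr a (neg_pi_le_S T (rdc α)) h
  have e : Op T a α y - Op T a α x =
      Oi a (prof T (rdc α) - 2 * Real.pi) y - Oi a (prof T (rdc α) - 2 * Real.pi) x := by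
    rw [Op_eq, Op_eq, Oi_eq, Oi_eq]; ring
  rw [e]; exact h1

theorem Op_incr1 {T a : ℕ} (haT : a + 1 ≤ T) (g : ℝ) {x y : ℝ} (h : x ≤ y) :
    0 ≤ Op T a y g - Op T a x g ∧ Op T a y g - Op T a x g ≤ T * (2 * T + 1) * (y - x) := by
  refine qe_incr ((glue_outer haT g).mono (wd_pos _).le) (fun x y hxy => ?_) h
  have h1 := prof_incr (T := T) hxy
  have h2 := Lam_incr_left a (prof (a + 1) (rdc g))
    (by linarith [prof_mono (T := T) hxy] : prof T x - 2 * Real.pi ≤ prof T y - 2 * Real.pi)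
  have e : Oi a (prof T y - 2 * Real.pi) g - Oi a (prof T x - 2 * Real.pi) g =
      Lam a (prof T y - 2 * Real.pi) (prof (a + 1) (rdc g)) -
        Lam a (prof T x - 2 * Real.pi) (prof (a + 1) (rdc g)) := by
    rw [Oi_eq, Oi_eq]; ring
  rw [e]
  exact ⟨h2.1, h2.2.trans (by linarith [h1.2])⟩

theorem abs_of_incr {f : ℝ → ℝ} {K : ℝ}
    (h : ∀ x y, x ≤ y → 0 ≤ f y - f x ∧ f y - f x ≤ K * (y - x)) (x y : ℝ) :
    |f y - f x| ≤ K * |y - x| := by
  rcases le_total x y with hxy | hxy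
  · rw [abs_of_nonneg (h x y hxy).1, abs_of_nonneg (by linarith)]
    exact (h x y hxy).2
  · rw [abs_sub_comm, abs_sub_comm y x, abs_of_nonneg (h y x hxy).1, abs_of_nonneg (by linarith)]
    exact (h y x hxy).2

/-- The Lipschitz constant in `g`, which depends on `a` only. -/
noncomputable def K2 (a : ℕ) : ℝ := (a + 1) * (2 * a + 3)

theorem K2_nonneg (a : ℕ) : 0 ≤ K2 a := by unfold K2; positivity

theorem Wp_lip (a : ℕ) (g g' : ℝ) : |Wp a g' - Wp a g| ≤ K2 a * |g' - g| :=
  abs_of_incr (fun _ _ h => Wp_incr a h) g g'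

theorem Op_lip2 (T a : ℕ) (α g g' : ℝ) : |Op T a α g' - Op T a α g| ≤ K2 a * |g' - g| :=
  abs_of_incr (fun _ _ h => Op_incr2 T a α h) g g'

/-- **The lifts are quasi-periodic, monotone and Lipschitz.** -/
theorem lift_prof {T a : ℕ} (haT : a + 1 ≤ T) :
    Lift a (K2 a + T * (2 * T + 1)) ((3 * a + 4) * Real.pi) (Wp a) (Op T a) := by
  have hpi := Real.pi_pos
  have ha : (0 : ℝ) ≤ a := by positivity
  have hT : (0 : ℝ) ≤ T := by positivity
  have hK := K2_nonneg a
  have hTT : (0 : ℝ) ≤ T * (2 * T + 1) := by positivity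
  refine
    { K0 := by positivity
      Wmono := fun x y h => by linarith [(Wp_incr a h).1]
      Wlip := fun g g' => (Wp_lip a g g').trans
        (mul_le_mul_of_nonneg_right (by linarith) (abs_nonneg _))
      Wper := fun g => ?_
      Wbd := fun g => ?_
      mono1 := fun g x y h => by linarith [(Op_incr1 haT g h).1]
      mono2 := fun α x y h => by linarith [(Op_incr2 T a α h).1]
      lip1 := fun α α' g => ?_
      lip2 := fun α g g' => (Op_lip2 T a α g g').trans
        (mul_le_mul_of_nonneg_right (by linarith) (abs_nonneg _))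
      per1 := fun α g => ?_
      per2 := fun α g => ?_
      bd := fun α g => ?_ }
  · have h := qe_add ((a + 1 : ℕ) : ℝ) (prof (a + 1)) g
    unfold Wp
    rw [h]; push_cast; ring
  · have h := qe_bd (d := ((a + 1 : ℕ) : ℝ)) (D := (3 * a + 4) * Real.pi) (f := prof (a + 1))
      (fun x h1 h2 => ?_) g
    · push_cast at h
      unfold Wp
      push_cast
      exact h
    · have e1 := pi_le_prof (a + 1) x
      have e2 := V_le a x
      push_cast
      rw [abs_le]
      constructor <;> nlinarith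
  · refine (abs_of_incr (fun _ _ h => Op_incr1 haT g h) α α').trans
      (mul_le_mul_of_nonneg_right (by linarith) (abs_nonneg _))
  · have h := qe_add 1 (fun α' => Oi a (prof T α' - 2 * Real.pi) g) α
    unfold Op
    rw [h, one_mul]
  · rw [Op_eq, Op_eq, rdc_add, ixp_add]
    push_cast; ring
  · have e : Op T a α g - (α + a * g) =
        Lam a (prof T (rdc α) - 2 * Real.pi) (prof (a + 1) (rdc g)) - (rdc α + a * rdc g) := by
      rw [Op_eq]
      unfold rdc
      ring
    rw [e]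
    have e1 := Lam_ge a (neg_pi_le_S T (rdc α)) (pi_le_prof (a + 1) (rdc g))
    have e2 := Lam_le a (S := prof T (rdc α) - 2 * Real.pi) (V_le a (rdc g))
    have r1 := neg_pi_le_rdc α
    have r2 := rdc_lt_pi α
    have r3 := neg_pi_le_rdc g
    have r4 := rdc_lt_pi g
    have r5 := mul_le_mul_of_nonneg_left r3 ha
    have r6 := mul_le_mul_of_nonneg_left r4.le ha
    rw [abs_le]
    constructor <;> nlinarith

/-! ### The trichotomy -/

theorem ei_eq (x : ℝ) : ei x = eI x := by
  unfold ei eI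
  rw [mul_comm]

theorem ei_odd (n : ℤ) : ei ((2 * n + 1) * Real.pi) = -1 := by
  have e : (2 * (n : ℝ) + 1) * Real.pi = Real.pi + 2 * Real.pi * n := by ring
  rw [ei_eq, e, eI_add_int, eI_pi]

theorem ei_add_int (x : ℝ) (n : ℤ) : ei (x + n * (2 * Real.pi)) = ei x := by
  have e : x + n * (2 * Real.pi) = x + 2 * Real.pi * n := by ring
  rw [ei_eq, ei_eq, e, eI_add_int]

/-- The local formula for `Wp`. -/
theorem Wp_local (a : ℕ) {g₀ g : ℝ} (h : |g - g₀| < wd (a + 1)) :
    Wp a g = prof (a + 1) (g - ixp g₀ * (2 * Real.pi)) + ixp g₀ * ((a + 1) * (2 * Real.pi)) := by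
  obtain ⟨h1, h2⟩ := abs_lt.mp h
  have h3 := neg_pi_le_rdc g₀
  have h4 := rdc_lt_pi g₀
  unfold rdc at h3 h4
  have h5 := qe_local (n := ixp g₀) (g := g) (glue_prof (a + 1)) (wd_le _ (by omega))
    (by linarith) (by linarith)
  unfold Wp
  rw [h5]; push_cast; ring

/-- The local formula for `Op`. -/
theorem Op_local {T a : ℕ} (haT : a + 1 ≤ T) {α₀ g₀ α g : ℝ} (hα : |α - α₀| < wd T)
    (hg : |g - g₀| < wd (a + 1)) :
    Op T a α g = Lam a (prof T (α - ixp α₀ * (2 * Real.pi)) - 2 * Real.pi)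
      (prof (a + 1) (g - ixp g₀ * (2 * Real.pi))) + (ixp g₀ * a + ixp α₀ : ℤ) * (2 * Real.pi) := by
  obtain ⟨h1, h2⟩ := abs_lt.mp hα
  have h3 := neg_pi_le_rdc α₀
  have h4 := rdc_lt_pi α₀
  unfold rdc at h3 h4
  have h5 := qe_local (n := ixp α₀) (g := α) (glue_outer haT g) (wd_le _ (by omega))
    (by linarith) (by linarith)
  obtain ⟨h1', h2'⟩ := abs_lt.mp hg
  have h3' := neg_pi_le_rdc g₀
  have h4' := rdc_lt_pi g₀
  unfold rdc at h3' h4'
  have h6 := qe_local (n := ixp g₀) (g := g)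
    (glue_inner (a := a) (neg_pi_le_S T (α - ixp α₀ * (2 * Real.pi)))) (wd_le _ (by omega))
    (by linarith) (by linarith)
  unfold Op
  rw [h5]
  unfold Oi
  rw [h6]
  push_cast; ring

theorem shift_lt {x x₀ δ : ℝ} {n : ℤ} (h : |x - x₀| < δ) :
    |x - n * (2 * Real.pi) - (x₀ - n * (2 * Real.pi))| < δ := by
  have e : x - n * (2 * Real.pi) - (x₀ - n * (2 * Real.pi)) = x - x₀ := by ring
  rwa [e]

/-- **The trichotomy.** -/
theorem tri_prof {T a : ℕ} (haT : a + 1 ≤ T) : Tri (2 * T + 1) (2 * a + 3) (Wp a) (Op T a) := by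
  refine ⟨by positivity, by positivity, fun α₀ g₀ => ?_⟩
  have hpi := Real.pi_pos
  have hwT := wd_pos T
  have hwa := wd_pos (a + 1)
  set m := ixp α₀ with hm
  set n := ixp g₀ with hn
  set S : ℝ → ℝ := fun α => prof T (α - m * (2 * Real.pi)) - 2 * Real.pi with hS
  set V : ℝ → ℝ := fun g => prof (a + 1) (g - n * (2 * Real.pi)) with hV
  have hW : ∀ g, |g - g₀| < wd (a + 1) → Wp a g = V g + n * ((a + 1) * (2 * Real.pi)) :=
    fun g hg => Wp_local a hg
  have hO : ∀ α g, |α - α₀| < wd T → |g - g₀| < wd (a + 1) →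
      Op T a α g = Lam a (S α) (V g) + (n * a + m : ℤ) * (2 * Real.pi) :=
    fun α g hα hg => Op_local haT hα hg
  have hz : ∀ x : ℝ, |x - x| = 0 := fun x => by rw [sub_self, abs_zero]
  have hW0 : ei (Wp a g₀) = ei (V g₀) := by
    rw [hW g₀ (by rw [hz]; exact hwa)]
    have e : V g₀ + n * ((a + 1) * (2 * Real.pi)) = V g₀ + (n * (a + 1) : ℤ) * (2 * Real.pi) := by
      push_cast; ring
    rw [e, ei_add_int]
  have hO0 : ei (Op T a α₀ g₀) = ei (Lam a (S α₀) (V g₀)) := by
    rw [hO α₀ g₀ (by rw [hz]; exact hwT) (by rw [hz]; exact hwa), ei_add_int]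
  -- continuity of `S` and `V`
  have hSc : ∀ δ > 0, ∃ r > 0, ∀ α, |α - α₀| < r → |S α - S α₀| < δ := by
    intro δ hδ
    refine ⟨δ / (T * (2 * T + 1) + 1), by positivity, fun α hα => ?_⟩
    have h1 := prof_lip T (α - m * (2 * Real.pi)) (α₀ - m * (2 * Real.pi))
    have e : S α - S α₀ = prof T (α - m * (2 * Real.pi)) - prof T (α₀ - m * (2 * Real.pi)) := by
      simp only [hS]; ring
    have e2 : α - m * (2 * Real.pi) - (α₀ - m * (2 * Real.pi)) = α - α₀ := by ring
    rw [e2] at h1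
    rw [lt_div_iff₀ (by positivity)] at hα
    rw [e]
    have : 0 ≤ |α - α₀| := abs_nonneg _
    nlinarith
  have hVc : ∀ δ > 0, ∃ r > 0, ∀ g, |g - g₀| < r → |V g - V g₀| < δ := by
    intro δ hδ
    refine ⟨δ / ((a + 1 : ℕ) * (2 * (a + 1 : ℕ) + 1) + 1), by positivity, fun g hg => ?_⟩
    have h1 := prof_lip (a + 1) (g - n * (2 * Real.pi)) (g₀ - n * (2 * Real.pi))
    have e2 : g - n * (2 * Real.pi) - (g₀ - n * (2 * Real.pi)) = g - g₀ := by ring
    rw [e2] at h1
    rw [lt_div_iff₀ (by positivity)] at hg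
    have : 0 ≤ |g - g₀| := abs_nonneg _
    show |V g - V g₀| < δ
    simp only [hV]
    nlinarith
  -- the third alternative
  have third : ei (Op T a α₀ g₀) = -1 → (∃ δ > 0, ∀ α g g', |α - α₀| < δ → |g - g₀| < δ →
      |g' - g₀| < δ → Op T a α g = Op T a α g') →
      (∃ δ > 0, ∀ α α' g, |α - α₀| < δ → |α' - α₀| < δ → |g - g₀| < δ → α ≤ α' →
        (2 * T + 1) * (α' - α) ≤ Op T a α' g - Op T a α g) ∨
      ei (Op T a α₀ g₀) = ei (Wp a g₀) ∨
      (ei (Op T a α₀ g₀) = -1 ∧ ∃ δ > 0, (∀ α g g', |α - α₀| < δ → |g - g₀| < δ →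
        |g' - g₀| < δ → Op T a α g = Op T a α g') ∧ ∀ g g', |g - g₀| < δ → |g' - g₀| < δ →
        g ≤ g' → (2 * a + 3) * (g' - g) ≤ Wp a g' - Wp a g) := by
    intro h1 h2
    rcases prof_dich (a + 1) (g₀ - n * (2 * Real.pi)) with ⟨k, hk⟩ | ⟨δ', hδ', hk⟩
    · right; left
      rw [h1, hW0]
      have : V g₀ = (2 * k + 1) * Real.pi := hk
      rw [this, ei_odd]
    · right; right
      obtain ⟨δ, hδ, h3⟩ := h2
      refine ⟨h1, min δ (min δ' (wd (a + 1))), lt_min hδ (lt_min hδ' hwa),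
        fun α g g' e1 e2 e3 => h3 α g g' (e1.trans_le (min_le_left _ _))
          (e2.trans_le (min_le_left _ _)) (e3.trans_le (min_le_left _ _)),
        fun g g' e1 e2 hgg => ?_⟩
      have b1 := (min_le_right δ (min δ' (wd (a + 1)))).trans (min_le_left _ _)
      have b2 := (min_le_right δ (min δ' (wd (a + 1)))).trans (min_le_right _ _)
      rw [hW g (e1.trans_le b2), hW g' (e2.trans_le b2)]
      have h4 := hk _ _ (shift_lt (n := n) (e1.trans_le b1)) (shift_lt (n := n) (e2.trans_le b1))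
      have e4 : V g' - V g = (2 * a + 3) * (g' - g) := by
        simp only [hV]
        rw [h4]; push_cast; ring
      linarith
  rcases Lam_tri a (S α₀) (V g₀) with (h | h) | ⟨c, δ, hδ, h⟩ | ⟨h, δ, hδ, h'⟩
  · right; left
    rw [hO0, hW0, h]
  · right; left
    rw [hO0, hW0, h]
    have e : V g₀ - 2 * Real.pi = V g₀ + (-1 : ℤ) * (2 * Real.pi) := by push_cast; ring
    rw [e, ei_add_int]
  · -- `Lam = S + const` near the point
    obtain ⟨r1, hr1, hS1⟩ := hSc δ hδ
    obtain ⟨r2, hr2, hV1⟩ := hVc δ hδ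
    have hO2 : ∀ α g, |α - α₀| < min (wd T) r1 → |g - g₀| < min (wd (a + 1)) r2 →
        Op T a α g = S α + c * (2 * Real.pi) + (n * a + m : ℤ) * (2 * Real.pi) := by
      intro α g e1 e2
      rw [hO α g (e1.trans_le (min_le_left _ _)) (e2.trans_le (min_le_left _ _)),
        h _ _ (hS1 α (e1.trans_le (min_le_right _ _))) (hV1 g (e2.trans_le (min_le_right _ _)))]
    rcases prof_dich T (α₀ - m * (2 * Real.pi)) with ⟨k, hk⟩ | ⟨δ', hδ', hk⟩
    · refine third ?_ ⟨min (min (wd T) r1) (min (wd (a + 1)) r2),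
        lt_min (lt_min hwT hr1) (lt_min hwa hr2), fun α g g' e1 e2 e3 => ?_⟩
      · rw [hO2 α₀ g₀ (by rw [hz]; exact lt_min hwT hr1) (by rw [hz]; exact lt_min hwa hr2),
          ei_add_int, ei_add_int]
        have e : S α₀ = (2 * k + 1) * Real.pi + (-1 : ℤ) * (2 * Real.pi) := by
          simp only [hS]; rw [hk]; push_cast; ring
        rw [e, ei_add_int, ei_odd]
      · rw [hO2 α g (e1.trans_le (min_le_left _ _)) (e2.trans_le (min_le_right _ _)),
          hO2 α g' (e1.trans_le (min_le_left _ _)) (e3.trans_le (min_le_right _ _))]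
    · left
      refine ⟨min δ' (min (min (wd T) r1) (min (wd (a + 1)) r2)),
        lt_min hδ' (lt_min (lt_min hwT hr1) (lt_min hwa hr2)), fun α α' g e1 e2 e3 hle => ?_⟩
      have b1 := min_le_left δ' (min (min (wd T) r1) (min (wd (a + 1)) r2))
      have b2 := (min_le_right δ' (min (min (wd T) r1) (min (wd (a + 1)) r2))).trans
        (min_le_left _ _)
      have b3 := (min_le_right δ' (min (min (wd T) r1) (min (wd (a + 1)) r2))).trans
        (min_le_right _ _)
      rw [hO2 α g (e1.trans_le b2) (e3.trans_le b3), hO2 α' g (e2.trans_le b2) (e3.trans_le b3)]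
      have h4 := hk _ _ (shift_lt (n := m) (e1.trans_le b1)) (shift_lt (n := m) (e2.trans_le b1))
      have e4 : S α' - S α = (2 * T + 1) * (α' - α) := by
        simp only [hS]
        have e5 : prof T (α' - m * (2 * Real.pi)) - 2 * Real.pi -
            (prof T (α - m * (2 * Real.pi)) - 2 * Real.pi) =
            prof T (α' - m * (2 * Real.pi)) - prof T (α - m * (2 * Real.pi)) := by ring
        rw [e5, h4]; ring
      linarith
  · obtain ⟨r1, hr1, hS1⟩ := hSc δ hδ
    obtain ⟨r2, hr2, hV1⟩ := hVc δ hδ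
    refine third ?_ ⟨min (min (wd T) r1) (min (wd (a + 1)) r2),
        lt_min (lt_min hwT hr1) (lt_min hwa hr2), fun α g g' e1 e2 e3 => ?_⟩
    · rw [hO0, h]
      exact ei_odd a
    · have a1 := e1.trans_le (min_le_left _ _)
      have a2 := e2.trans_le (min_le_right _ _)
      have a3 := e3.trans_le (min_le_right _ _)
      rw [hO α g (a1.trans_le (min_le_left _ _)) (a2.trans_le (min_le_left _ _)),
        hO α g' (a1.trans_le (min_le_left _ _)) (a3.trans_le (min_le_left _ _)),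
        h' _ _ (hS1 α (a1.trans_le (min_le_right _ _))) (hV1 g (a2.trans_le (min_le_right _ _))),
        h' _ _ (hS1 α (a1.trans_le (min_le_right _ _))) (hV1 g' (a3.trans_le (min_le_right _ _)))]

/-! ### The ends of the path -/

theorem ei_Wp (a : ℕ) (z : ℂ) : ei (Wp a z.arg) = eI (Vph a z) := by
  have h := qe_of_mem ((glue_prof (a + 1)).mono (wd_pos _).le) (Complex.neg_pi_lt_arg z).le
    (Complex.arg_le_pi z)
  unfold Wp
  rw [h, ei_eq]
  rfl

theorem ei_Op {T a : ℕ} (haT : a + 1 ≤ T) (y z : ℂ) :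
    ei (Op T a y.arg z.arg) = eI (Lam a (Sph T y) (Vph a z)) := by
  have h := qe_of_mem ((glue_outer haT z.arg).mono (wd_pos _).le) (Complex.neg_pi_lt_arg y).le
    (Complex.arg_le_pi y)
  have h2 := qe_of_mem ((glue_inner (a := a) (neg_pi_le_S T y.arg)).mono (wd_pos _).le)
    (Complex.neg_pi_lt_arg z).le (Complex.arg_le_pi z)
  unfold Op
  rw [h]
  unfold Oi
  rw [h2, ei_eq]
  rfl

/-- The end of the path is the start of the level step. -/
theorem plk_one {T a : ℕ} (haT : a + 1 ≤ T) (l : ℝ) (y z : ℂ) :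
    plk l 1 (Wp a) (Op T a) y z = lkw T a l 0 y z := by
  have e : bw T a l 0 y z = bm l y z := by
    unfold bw bm
    congr 1
    ring
  unfold plk lkw
  rw [e, ei_Wp, ei_Op haT, one_mul, Complex.real_smul, Complex.real_smul]

theorem mfam_one {T a : ℕ} (haT : a + 1 ≤ T) (l : ℝ) (y z : ℂ) :
    mfam a l (Wp a) (Op T a) (1, 1) y z = lkw T a l 0 y z := by
  rw [← plk_one haT]
  unfold mfam plk Tau.Wt Tau.Ωt
  simp

/-- The start of the path is the chain link. -/
theorem mfam_zero {T a : ℕ} {l : ℝ} (hl : 0 ≤ l) (y z : ℂ) :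
    mfam a l (Wp a) (Op T a) (0, 0) y z = Vale.Agent.P268.T.lk l a y z := by
  unfold mfam plk Tau.Wt Tau.Ωt
  simp only [sub_zero, one_mul, zero_mul, add_zero, zero_smul, zero_add]
  by_cases hy : y = 0
  · subst hy
    have : bm l 0 z = 0 := by
      unfold bm; rw [norm_zero, mul_zero]; exact min_eq_left (norm_nonneg _)
    rw [this, zero_smul, Vale.Agent.P268.T.lk]
    simp [ph]
  by_cases hz : z = 0
  · subst hz
    have : bm l y 0 = 0 := by
      unfold bm; rw [norm_zero]; exact min_eq_right (by positivity)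
    rw [this, zero_smul, Vale.Agent.P268.T.lk, norm_zero]
    rw [min_eq_left (by positivity)]
    simp
  have hph : ∀ w : ℂ, w ≠ 0 → ph w = ei w.arg := by
    intro w hw
    have h1 : (‖w‖ : ℂ) ≠ 0 := by
      rw [Ne, Complex.ofReal_eq_zero, norm_eq_zero]; exact hw
    unfold ph ei
    rw [div_eq_iff h1, mul_comm]
    exact (Complex.norm_mul_exp_arg_mul_I w).symm
  have hpow : ∀ (x : ℝ) (k : ℕ), ei (k * x) = ei x ^ k := by
    intro x k
    unfold ei
    rw [← Complex.exp_nat_mul]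
    congr 1
    push_cast; ring
  rw [ei_add, hpow, Vale.Agent.P268.T.lk, hph y hy, hph z hz, Complex.real_smul]
  unfold bm
  rw [min_comm]

end Vale.Agent.P268.T.TP548
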